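import Crest.Agent.X212.Rg3.Com
import Crest.Agent.X212.Thk1.PL
import Crest.Agent.R096.Pb1_715
import Crest.Agent.R096.Gn1_296
import Crest.Agent.X212.Thk1.Side
import Crest.Agent.X212.Tw9.Ch

-- ▼ part X212/Rg3/Set
section

/-!
# Row 212, layer T, R1 (helper3), part 2: the incompressible splitting of the solid ring
-/

set_option autoImplicit false

open Set Metric Topology Filter Crest.Agent.R096.Ce_537 Crest.Agent.X212.Prd34
  Crest.Agent.X212.Lev33 Crest.Agent.X212.Lad50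
open Crest.Agent.R096.Cx_609 (isBall_of_injOn)

namespace Crest.Agent.X212.Rg3

variable {H : V → V} {c δ ε : ℝ} {A B : Set V}

theorem n0 : (0 : Fin 3) ∉ ({1} : Finset (Fin 3)) := by decide
theorem n2 : (2 : Fin 3) ∉ ({1} : Finset (Fin 3)) := by decide

theorem mem_lat1 {l : V} : l ∈ Prd34.lat {1} ↔ l 0 = 0 ∧ (∃ n : ℤ, l 1 = n) ∧ l 2 = 0 := by
  constructor
  · intro h
    exact ⟨(h 0).2 n0, (h 1).1 (by decide), (h 2).2 n2⟩
  · rintro ⟨h0, h1, h2⟩ i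
    fin_cases i
    · exact ⟨fun h => absurd h n0, fun _ => h0⟩
    · exact ⟨fun _ => h1, fun h => absurd (Finset.mem_singleton_self _) h⟩
    · exact ⟨fun h => absurd h n2, fun _ => h2⟩

/-- the ring over the plane set `Q` -/
def Im (H : V → V) (Q : Set (ℝ × ℝ)) : Set V := H '' {x | (x 0, x 2) ∈ Q}

theorem mem_Im (h : Per {1} H) {Q : Set (ℝ × ℝ)} {z : V} : H z ∈ Im H Q ↔ (z 0, z 2) ∈ Q := by
  refine ⟨?_, fun k => ⟨z, k, rfl⟩⟩
  rintro ⟨x, hx, e⟩
  rw [← coord_eq h e n0, ← coord_eq h e n2]; exact hx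

theorem Im_sub {Q : Set (ℝ × ℝ)} : Im H Q ⊆ range H := image_subset_range _ _

theorem isOpen_Im (h : Per {1} H) {Q : Set (ℝ × ℝ)} (hQ : IsOpen Q) : IsOpen (Im H Q) :=
  h.opn _ (hQ.preimage (f := fun x : V => (x 0, x 2)) (by fun_prop))

theorem isCompact_Im (h : Per {1} H) {Q : Set (ℝ × ℝ)} (hQ : IsCompact Q) :
    IsCompact (Im H Q) := by
  have hc := h.cont
  have : Im H Q = (fun p : (ℝ × ℝ) × ℝ => H ![p.1.1, p.2, p.1.2]) '' (Q ×ˢ Icc 0 1) := by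
    ext y
    constructor
    · rintro ⟨z, hz, rfl⟩
      refine ⟨((z 0, z 2), Int.fract (z 1)), ⟨hz, Int.fract_nonneg _, (Int.fract_lt_one _).le⟩, ?_⟩
      exact (h.fib _ _).2 (mem_lat1.2 ⟨by simp, ⟨-⌊z 1⌋, by simp [← Int.self_sub_floor]⟩, by simp⟩)
    · rintro ⟨p, hp, rfl⟩
      exact (mem_Im h).2 hp.1
  rw [this]
  exact (hQ.prod isCompact_Icc).image (by fun_prop)

/-- the open ring -/
def UU (H : V → V) (c δ : ℝ) : Set V := Im H {q | |q.1| < 1 ∧ |q.2 - c| < δ}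

/-- the two circles -/
def GG (H : V → V) (c s : ℝ) : Set V := Im H {(s, c)}

theorem mem_UU (h : Per {1} H) {z : V} : H z ∈ UU H c δ ↔ |z 0| < 1 ∧ |z 2 - c| < δ := mem_Im h

theorem mem_GG (h : Per {1} H) {s : ℝ} {z : V} : H z ∈ GG H c s ↔ z 0 = s ∧ z 2 = c := by
  rw [GG, mem_Im h]; simp

theorem mem_Gam (h : Per {1} H) {z : V} :
    H z ∈ GG H c (-1) ∪ GG H c 1 ↔ |z 0| = 1 ∧ z 2 = c := by
  rw [mem_union, mem_GG h, mem_GG h, abs_eq zero_le_one]; tauto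

theorem range_GG (h : Per {1} H) (s : ℝ) : (range fun t : ℝ => H ![s, t, c]) = GG H c s := by
  ext y
  constructor
  · rintro ⟨t, rfl⟩
    exact (mem_GG h).2 ⟨rfl, rfl⟩
  · intro hy
    obtain ⟨z, rfl⟩ := Im_sub hy
    obtain ⟨h1, h2⟩ := (mem_GG h).1 hy
    refine ⟨z 1, congrArg H ?_⟩
    ext i; fin_cases i <;> simp [h1, h2]

theorem conn_GG (h : Per {1} H) (s : ℝ) : IsPreconnected (GG H c s) := by
  have hc := h.cont
  rw [← range_GG h]
  exact isPreconnected_range (by fun_prop)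

/-- standard near the walls, `A` above and `B` below -/
structure Std (H : V → V) (c δ ε : ℝ) (A B : Set V) : Prop where
  pos : 0 < ε
  le : ε ≤ 1 / 4
  lt : ε < δ
  wall : ∀ z, 1 - ε ≤ |z 0| → |z 0| < 1 → |z 2 - c| < δ →
    (H z ∈ A ↔ c ≤ z 2) ∧ (H z ∈ B ↔ z 2 ≤ c)
  lowA : ∀ z, H z ∈ A → c - δ + ε ≤ z 2
  upB : ∀ z, H z ∈ B → z 2 ≤ c + δ - ε

/-- the cut-off -/
noncomputable def mu0 (s : ℝ) : ℝ := max 0 (min 1 (7 - 8 * |s|))

theorem pl_mu0 {f : V → ℝ} {K : Set V} (hf : PLOn f K) : PLOn (fun x => mu0 (f x)) K :=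
  pl_max (plOn_const _ _) (pl_min (plOn_const _ _) (pl_sub (plOn_const _ _)
    (pl_mul _ (pl_abs hf))))

theorem continuous_mu0 : Continuous mu0 := by unfold mu0; fun_prop

/-- the first splitting -/
theorem exists_spl (hL : LevStmt) (h : Per {1} H) (hp : LocPL H (rim {0})) (c : ℝ) (hδ : 0 < δ) :
    ∃ A B ε, Spl (UU H c δ) A B ∧ Std H c δ ε A B := by
  have o1 : ∀ a : ℝ, IsOpen {q : ℝ × ℝ | |q.1| < a} := fun a =>
    isOpen_lt (by fun_prop) continuous_const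
  have o2 : IsOpen {q : ℝ × ℝ | |q.2 - c| < δ} := isOpen_lt (by fun_prop) continuous_const
  have o3 : IsOpen {q : ℝ × ℝ | 1 / 2 < |q.1|} := isOpen_lt continuous_const (by fun_prop)
  have oU : IsOpen (UU H c δ) := isOpen_Im h ((o1 1).inter o2)
  have s0 : ∀ z, sec H (H z) 0 = z 0 := fun z => sec_coord h z n0
  have s2 : ∀ z, sec H (H z) 2 = z 2 := fun z => sec_coord h z n2
  obtain ⟨A, B, K', t, h1, h2, h3, h4, h5, h6, h7⟩ := hL (UU H c δ)
    (Im H {q | (1 / 2 < |q.1| ∧ |q.1| < 1) ∧ |q.2 - c| < δ})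
    (Im H {q | |q.1| < 3 / 4 ∧ |q.2 - c| < δ})
    (Im H (Icc (-(1 / 2)) (1 / 2) ×ˢ Icc (c - δ / 2) (c + δ / 2)))
    (fun y => sec H y 2 - c) (fun y => mu0 (sec H y 0)) (δ / 2) oU
    (isOpen_Im h ((o3.inter (o1 1)).inter o2))
    (image_mono fun x hx => ⟨hx.1.2, hx.2⟩)
    (isOpen_Im h ((o1 (3 / 4)).inter o2))
    (image_mono fun x hx => ⟨hx.1.trans (by norm_num), hx.2⟩)
    (isCompact_Im h (isCompact_Icc.prod isCompact_Icc))
    (image_mono fun x hx => ⟨abs_lt.2 ⟨by linarith [hx.1.1], by linarith [hx.1.2]⟩,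
      abs_lt.2 ⟨by linarith [hx.2.1], by linarith [hx.2.2]⟩⟩)
    (half_pos hδ) (((cont_sec h n2).mono Im_sub).sub continuousOn_const)
    (continuous_mu0.comp_continuousOn ((cont_sec h n0).mono Im_sub))
    (locPL_of_nhds (by
      rintro _ ⟨z, hz, rfl⟩
      obtain ⟨r, hr, k⟩ := hp z ⟨0, Finset.mem_singleton_self _, hz.1.1⟩
      obtain ⟨N, hN, k'⟩ := pl_sec h n2 hr k
      exact ⟨N, hN, pl_sub k' (plOn_const _ _)⟩))
    (by
      rintro _ ⟨z, hz, rfl⟩ k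
      simp only [s2] at k
      by_cases q : 1 / 2 < |z 0|
      · exact Or.inl ((mem_Im h).2 ⟨⟨q, hz.1⟩, hz.2⟩)
      · exact Or.inr ((mem_Im h).2 ⟨abs_le.1 (not_lt.1 q),
          by linarith [(abs_le.1 k).1], by linarith [(abs_le.1 k).2]⟩))
    (by
      rintro _ ⟨z, hz, rfl⟩
      have : |z 0| < 3 / 4 := hz.1
      simp only [s0, mu0]
      rw [min_eq_left (by linarith), max_eq_right zero_le_one])
    (fun x _ => ⟨le_max_left _ _, max_le zero_le_one (min_le_left _ _)⟩)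
    (by
      rintro t - _ ⟨z, hz, rfl⟩ e
      simp only [s0, s2] at e
      obtain ⟨r, hr, k⟩ := hp z ⟨0, Finset.mem_singleton_self _, hz.1.1⟩
      let σ : V → V := fun v => ![z 0 + v 0, z 1 + v 1, c + v 2 + t * mu0 (z 0 + v 0)]
      have pσ : PLOn σ univ := pl_vec3 (pl_add (plOn_const _ _) (pl_coord 0 _))
        (pl_add (plOn_const _ _) (pl_coord 1 _)) (pl_add (pl_add (plOn_const _ _) (pl_coord 2 _))
          (pl_mul _ (pl_mu0 (pl_add (plOn_const _ _) (pl_coord 0 _)))))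
      have σ0 : σ 0 = z := by
        ext i; fin_cases i <;> simp [σ]
        linarith
      have tσ : Tendsto σ (𝓝 0) (𝓝 z) := σ0 ▸ (continuousOn_univ.1 pσ.1).continuousAt
      have iσ : Function.Injective σ := by
        intro v v' e
        have e0 : z 0 + v 0 = z 0 + v' 0 := congrFun e 0
        have e1 : z 1 + v 1 = z 1 + v' 1 := congrFun e 1
        have e2 : c + v 2 + t * mu0 (z 0 + v 0) = c + v' 2 + t * mu0 (z 0 + v' 0) := congrFun e 2
        rw [e0] at e2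
        ext i; fin_cases i
        · exact add_left_cancel e0
        · exact add_left_cancel e1
        · exact add_left_cancel (add_right_cancel e2)
      have hN := tσ (inter_mem (inter_mem (ball_mem_nhds z hr)
        (ball_mem_nhds z (show (0 : ℝ) < 1 / 2 by norm_num)))
        (h.cont.continuousAt (oU.mem_nhds ((mem_UU h).2 ⟨hz.1.2, hz.2⟩))))
      rw [← σ0]
      refine fl_of_germ (Φ := fun v => H (σ v)) hN
        (k.comp (pσ.mono (subset_univ _)) fun v hv => hv.1.1)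
        (fun v hv v' hv' e => iσ (injOn_ball h z hv.1.2 hv'.1.2 e)) fun v hv => ?_
      have hU : H (σ v) ∈ UU H c δ := hv.2
      simp only [mem_ofPred_eq, hU, true_and, s0, s2]
      simp only [σ, Matrix.cons_val_zero, Matrix.cons_val]
      constructor <;> constructor <;> intro q <;> linarith)
  refine ⟨A, B, min (1 / 8) (δ / 2), h1, lt_min (by norm_num) (half_pos hδ),
    (min_le_left _ _).trans (by norm_num), (min_le_right _ _).trans_lt (half_lt_self hδ),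
    fun z k1 k2 k3 => ?_, fun z k => ?_, fun z k => ?_⟩
  · have k4 : 7 / 8 ≤ |z 0| := by linarith [min_le_left (1 / 8 : ℝ) (δ / 2)]
    have := h5 (H z) ((mem_UU h).2 ⟨k2, k3⟩) fun q => by
      have : |z 0| < 3 / 4 := ((mem_Im h).1 (h3 q)).1
      linarith
    have e : mu0 (z 0) = 0 := max_eq_left ((min_le_right _ _).trans (by linarith))
    simpa only [s0, s2, e, mul_zero, sub_nonneg, sub_nonpos] using this
  · have := h6 _ k
    simp only [s2] at this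
    linarith [min_le_right (1 / 8 : ℝ) (δ / 2)]
  · have := h7 _ k
    simp only [s2] at this
    linarith [min_le_right (1 / 8 : ℝ) (δ / 2)]

/-- the collar of the boundary -/
theorem Std.collar (h : Per {1} H) (s : Spl (UU H c δ) A B) (d : Std H c δ ε A B) {z : V}
    (hz : 1 - ε ≤ |z 0|) :
    H z ∈ A ∩ B ∪ (GG H c (-1) ∪ GG H c 1) ↔ |z 0| ≤ 1 ∧ z 2 = c := by
  constructor
  · rintro (k | k)
    · obtain ⟨k1, k2⟩ := (mem_UU h).1 (s.subA k.1)
      obtain ⟨k3, k4⟩ := d.wall z hz k1 k2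
      exact ⟨k1.le, le_antisymm (k4.1 k.2) (k3.1 k.1)⟩
    · exact ⟨((mem_Gam h).1 k).1.le, ((mem_Gam h).1 k).2⟩
  · rintro ⟨k1, k2⟩
    rcases k1.eq_or_lt with k | k
    · exact Or.inr ((mem_Gam h).2 ⟨k, k2⟩)
    · obtain ⟨k3, k4⟩ := d.wall z hz k (by rw [k2, sub_self, abs_zero]; linarith [d.pos, d.lt])
      exact Or.inl ⟨k3.2 k2.ge, k4.2 k2.le⟩

theorem dj_UU (h : Per {1} H) : Disjoint (UU H c δ) (GG H c (-1) ∪ GG H c 1) := by
  rw [disjoint_left]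
  intro y h1 h2
  obtain ⟨z, rfl⟩ := Im_sub h1
  exact ((mem_UU h).1 h1).1.ne ((mem_Gam h).1 h2).1

theorem sub_range (s : Spl (UU H c δ) A B) : A ∩ B ∪ (GG H c (-1) ∪ GG H c 1) ⊆ range H :=
  union_subset (fun _ k => Im_sub (s.subA k.1)) (union_subset Im_sub Im_sub)

theorem st_of (h : Per {1} H) (hp : LocPL H (rim {0})) (s : Spl (UU H c δ) A B)
    (d : Std H c δ ε A B) : St (UU H c δ) (GG H c (-1) ∪ GG H c 1) A B := by
  have e0 := d.pos
  have e1 := d.le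
  have e2 := d.lt
  refine ⟨s, dj_UU h, ?_, ?_⟩
  · have k1 := ((isCompact_Im h ((isCompact_Icc (a := -(1 - ε)) (b := 1 - ε)).prod
      (isCompact_Icc (a := c - δ + ε) (b := c + δ - ε)))).diff s.clA).diff s.clB
    have k2 := isCompact_Im h (((isCompact_Icc (a := (-1 : ℝ)) (b := 1)).inter_right
      (isClosed_le (f := fun _ => 1 - ε) continuous_const continuous_abs)).prod
      (isCompact_singleton (x := c)))
    convert k1.union k2 using 1
    ext y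
    constructor
    · intro hy
      obtain ⟨z, rfl⟩ := sub_range s hy
      by_cases q : 1 - ε ≤ |z 0|
      · obtain ⟨q1, q2⟩ := (d.collar h s q).1 hy
        exact Or.inr ((mem_Im h).2 ⟨⟨abs_le.1 q1, q⟩, q2⟩)
      · have hS : H z ∈ A ∩ B := hy.resolve_right fun k => q (by
          rw [((mem_Gam h).1 k).1]; linarith)
        exact Or.inl ⟨⟨(mem_Im h).2 ⟨abs_le.1 (not_le.1 q).le, d.lowA z hS.1, d.upB z hS.2⟩,
          fun k => k.2 hS.1⟩, fun k => k.2 hS.2⟩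
    · rintro (⟨⟨k1, k2⟩, k3⟩ | k)
      · obtain ⟨z, rfl⟩ := Im_sub k1
        obtain ⟨q1, q2⟩ := (mem_Im h).1 k1
        have hU : H z ∈ UU H c δ := (mem_UU h).2 ⟨abs_lt.2 ⟨by linarith [q1.1], by linarith [q1.2]⟩,
          abs_lt.2 ⟨by linarith [q2.1], by linarith [q2.2]⟩⟩
        exact Or.inl ⟨by_contra fun q => k2 ⟨hU, q⟩, by_contra fun q => k3 ⟨hU, q⟩⟩
      · obtain ⟨z, rfl⟩ := Im_sub k
        obtain ⟨q1, q2⟩ := (mem_Im h).1 k
        exact (d.collar h s q1.2).2 ⟨abs_le.2 q1.1, q2⟩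
  · intro x hx W hW
    obtain ⟨z, rfl⟩ := sub_range s (Or.inr hx)
    obtain ⟨z0, z2⟩ := (mem_Gam h).1 hx
    have zz : z 0 * z 0 = 1 := by rw [← abs_mul_abs_self, z0, mul_one]
    obtain ⟨r0, hr0, k⟩ := hp z ⟨0, Finset.mem_singleton_self _, by rw [z0]; norm_num⟩
    obtain ⟨ρ, hρ, hb⟩ := Metric.nhds_basis_closedBall.mem_iff.1 (inter_mem (inter_mem
      (ball_mem_nhds z hr0) (ball_mem_nhds z e0)) (h.cont.continuousAt hW))
    obtain ⟨r, hr, rfl⟩ : ∃ r, 0 < r ∧ ρ = 2 * r := ⟨ρ / 2, half_pos hρ, by ring⟩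
    let ψ : P → V := fun y => ![z 0 * (1 - r + r * y 0), z 1 + r * y 1, c]
    have pψ : PLOn ψ (cube 2) := pl_vec3 (pl_mul _ (pl_add (plOn_const _ _)
      (pl_mul _ (pl_coord 0 _)))) (pl_add (plOn_const _ _) (pl_mul _ (pl_coord 1 _)))
      (plOn_const _ _)
    have mψ : ∀ y ∈ cube 2, ψ y ∈ closedBall z (2 * r) := by
      intro y hy
      have y0 := abs_le.1 (mem_cube.1 hy 0)
      have y1 := mem_cube.1 hy 1
      rw [mem_closedBall, dist_eq_norm, pi_norm_le_iff_of_nonneg hρ.le]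
      intro i
      fin_cases i
      · show |z 0 * (1 - r + r * y 0) - z 0| ≤ _
        rw [show z 0 * (1 - r + r * y 0) - z 0 = z 0 * (r * (y 0 - 1)) by ring, abs_mul, z0,
          one_mul, abs_le]
        constructor <;> nlinarith
      · show |z 1 + r * y 1 - z 1| ≤ _
        rw [add_sub_cancel_left, abs_mul, abs_of_pos hr]
        nlinarith
      · show |c - z 2| ≤ _
        rw [z2, sub_self, abs_zero]; exact hρ.le
    have near : ∀ x ∈ ball z ε, 1 - ε ≤ |x 0| ∧ |x 0| = z 0 * x 0 := by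
      intro x hx
      have k1 : |x 0 - z 0| < ε := (norm_le_pi_norm (x - z) 0).trans_lt (mem_ball_iff_norm.1 hx)
      rw [abs_lt] at k1
      rcases (abs_eq zero_le_one).1 z0 with q | q <;> rw [q] at k1 ⊢
      · rw [abs_of_pos (by linarith)]; exact ⟨by linarith, by ring⟩
      · rw [abs_of_neg (by linarith)]; exact ⟨by linarith, by ring⟩
    have iψ : InjOn (fun y => H (ψ y)) (cube 2) := by
      intro y hy y' hy' e
      have e' := injOn_ball h z (ball_subset_ball (by linarith) (hb (mψ y hy)).1.2)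
        (ball_subset_ball (by linarith) (hb (mψ y' hy')).1.2) e
      have a0 : z 0 * (1 - r + r * y 0) = z 0 * (1 - r + r * y' 0) := congrFun e' 0
      have a1 : z 1 + r * y 1 = z 1 + r * y' 1 := congrFun e' 1
      have z1 : z 0 ≠ 0 := by rintro q; rw [q] at zz; simp at zz
      ext i; fin_cases i
      · exact mul_left_cancel₀ hr.ne' (add_left_cancel (mul_left_cancel₀ z1 a0))
      · exact mul_left_cancel₀ hr.ne' (add_left_cancel a1)
    refine ⟨_, _, isBall_of_injOn (k.comp pψ fun y hy => (hb (mψ y hy)).1.1) iψ, ?_, ?_, ?_⟩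
    · rintro _ ⟨y, hy, rfl⟩
      obtain ⟨k1, k2⟩ := near _ (hb (mψ y hy)).1.2
      refine ⟨(d.collar h s k1).2 ⟨?_, rfl⟩, (hb (mψ y hy)).2⟩
      rw [k2]
      show z 0 * (z 0 * (1 - r + r * y 0)) ≤ 1
      rw [← mul_assoc, zz]
      nlinarith [abs_le.1 (mem_cube.1 hy 0)]
    · filter_upwards [mem_nhdsWithin_of_mem_nhds (h.opn.image_mem_nhds (inter_mem
        (ball_mem_nhds z hr) (ball_mem_nhds z e0))), self_mem_nhdsWithin]
      rintro _ ⟨x, hx, rfl⟩ hS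
      obtain ⟨k1, k2⟩ := near x hx.2
      obtain ⟨k3, k4⟩ := (d.collar h s k1).1 hS
      have k5 : |x 0 - z 0| < r := (norm_le_pi_norm (x - z) 0).trans_lt (mem_ball_iff_norm.1 hx.1)
      have k6 : |x 1 - z 1| < r := (norm_le_pi_norm (x - z) 1).trans_lt (mem_ball_iff_norm.1 hx.1)
      have k7 : |z 0 * x 0 - 1| < r := by
        rwa [← zz, ← mul_sub, abs_mul, z0, one_mul]
      refine ⟨![(z 0 * x 0 - 1 + r) / r, (x 1 - z 1) / r], mem_cube.2 fun i => ?_, congrArg H ?_⟩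
      · fin_cases i
        · show |(z 0 * x 0 - 1 + r) / r| ≤ 1
          rw [abs_div, abs_of_pos hr, div_le_one hr, abs_le]
          constructor <;> linarith [(abs_lt.1 k7).1]
        · show |(x 1 - z 1) / r| ≤ 1
          rw [abs_div, abs_of_pos hr, div_le_one hr]; exact k6.le
      · ext i; fin_cases i
        · show z 0 * (1 - r + r * ((z 0 * x 0 - 1 + r) / r)) = x 0
          rw [mul_div_cancel₀ _ hr.ne']
          linear_combination (x 0) * zz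
        · show z 1 + r * ((x 1 - z 1) / r) = x 1
          rw [mul_div_cancel₀ _ hr.ne']; ring
        · exact k4.symm
    · refine ⟨![1, 0], mem_sph2.2 ⟨mem_cube.2 fun i => by fin_cases i <;> simp, by simp⟩,
        congrArg H ?_⟩
      ext i; fin_cases i <;> simp [ψ, z2]

/-- a change on a compact set keeps the standard form -/
theorem Std.off (h : Per {1} H) (d : Std H c δ ε A B) {A' B' K : Set V} (hK : IsCompact K)
    (hKU : K ⊆ UU H c δ) (e : ∀ x, x ∉ K → ((x ∈ A' ↔ x ∈ A) ∧ (x ∈ B' ↔ x ∈ B))) :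
    ∃ ε', Std H c δ ε' A' B' := by
  have hr : K ⊆ range H := fun _ k => Im_sub (hKU k)
  obtain ⟨m, hm, hmK⟩ : ∃ m > 0, ∀ z, H z ∈ K → m ≤ min (1 - |z 0|) (δ - |z 2 - c|) := by
    have hc : ContinuousOn (fun y => min (1 - |sec H y 0|) (δ - |sec H y 2 - c|)) K :=
      (continuousOn_const.sub ((cont_sec h n0).mono hr).abs).inf
        (continuousOn_const.sub (((cont_sec h n2).mono hr).sub continuousOn_const).abs)
    rcases K.eq_empty_or_nonempty with rfl | hne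
    · exact ⟨1, one_pos, fun _ k => k.elim⟩
    · obtain ⟨x, hx, hmin⟩ := hK.exists_isMinOn hne hc
      obtain ⟨z, rfl⟩ := hr hx
      obtain ⟨k1, k2⟩ := (mem_UU h).1 (hKU hx)
      refine ⟨min (1 - |z 0|) (δ - |z 2 - c|), lt_min (by linarith) (by linarith), fun w hw => ?_⟩
      simpa only [sec_coord h _ n0, sec_coord h _ n2] using isMinOn_iff.1 hmin _ hw
  have l1 := min_le_left ε (m / 2)
  have l2 := min_le_right ε (m / 2)
  refine ⟨min ε (m / 2), lt_min d.pos (half_pos hm), l1.trans d.le, l1.trans_lt d.lt,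
    fun z k1 k2 k3 => ?_, fun z k => ?_, fun z k => ?_⟩
  · have q : H z ∉ K := fun q => by linarith [(le_min_iff.1 (hmK z q)).1]
    rw [(e _ q).1, (e _ q).2]
    exact d.wall z (by linarith) k2 k3
  · by_cases q : H z ∈ K
    · linarith [(le_min_iff.1 (hmK z q)).2, neg_abs_le (z 2 - c)]
    · linarith [d.lowA z ((e _ q).1.1 k)]
  · by_cases q : H z ∈ K
    · linarith [(le_min_iff.1 (hmK z q)).2, le_abs_self (z 2 - c)]
    · linarith [d.upB z ((e _ q).2.1 k)]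

/-- **the incompressible splitting** -/
theorem exists_inc (hI : IncStmt) (hL : LevStmt) (h : Per {1} H) (hp : LocPL H (rim {0})) (c : ℝ)
    (hδ : 0 < δ) : ∃ A B ε, St (UU H c δ) (GG H c (-1) ∪ GG H c 1) A B ∧ Std H c δ ε A B ∧
      ∀ x (p : Path x x), (∀ t, p t ∈ A ∩ B) → NH (UU H c δ) p → NH (A ∩ B) p := by
  obtain ⟨A, B, ε, s, d⟩ := exists_spl hL h hp c hδ
  have ess : ∀ s : ℝ, ¬ Tr (GG H c s) fun x y => par 1 (latc H x y) := fun s =>
    not_tr_par h (Finset.mem_singleton_self _) (g := fun t => ![s, t, c]) (by fun_prop)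
      (fun t => (mem_GG h).2 ⟨rfl, rfl⟩)
      ((h.fib _ _).2 (mem_lat1.2 ⟨by simp, ⟨-1, by simp⟩, by simp⟩)) (by simp)
  have co : Coc (UU H c δ ∪ (GG H c (-1) ∪ GG H c 1)) fun x y => par 1 (latc H x y) :=
    (coc_par h (Finset.mem_singleton_self _)).mono
      (union_subset Im_sub (union_subset Im_sub Im_sub))
  obtain ⟨A', B', K, k1, -, k2, k3, k4, k5⟩ := hI (UU H c δ) (GG H c (-1) ∪ GG H c 1)
    (fun _ _ => True)
    (by
      rintro x (hx | hx)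
      · exact ⟨_, subset_union_left, hx, conn_GG h _, _, co, ess _⟩
      · exact ⟨_, subset_union_right, hx, conn_GG h _, _, co, ess _⟩)
    (fun _ _ _ _ _ _ _ _ => trivial) (fun _ _ _ _ _ _ _ _ => trivial) A B (st_of h hp s d) trivial
  obtain ⟨ε', d'⟩ := d.off h k2 k3 k4
  exact ⟨A', B', ε', k1, d', k5⟩

end Crest.Agent.X212.Rg3
end

-- ▼ part X212/Rg3/Main
section

/-!
# Row 212, layer T, R1 (helper3), part 3: `rung1 : IncStmt → LevStmt → AnnRec → Rung1Stmt`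
-/

set_option autoImplicit false

open Set Metric Topology Filter Crest.Agent.R096.Ce_537 Crest.Agent.X212.Prd34
  Crest.Agent.X212.Lev33 Crest.Agent.X212.Lad50 Crest.Agent.X212.Srf12

namespace Crest.Agent.X212.Rg3

variable {H : V → V} {c δ ε : ℝ} {A B : Set V}

theorem lin_coord {n : ℕ} (i : Fin n) : IsLinearMap ℝ fun x : Fin n → ℝ => x i :=
  ⟨fun _ _ => rfl, fun _ _ => rfl⟩

theorem ad0 (y : P) (r : ℝ) : (y + ![0, r] : P) 0 = y 0 := add_zero _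

theorem ad1 (y : P) (r : ℝ) : (y + ![0, r] : P) 1 = y 1 + r := rfl

/-- the collar at the wall `s = ±1` is connected to the circle -/
theorem collar_iff (h : Per {1} H) (s : Spl (UU H c δ) A B) (d : Std H c δ ε A B) {C : Set V}
    (hC : Clop (A ∩ B ∪ (GG H c (-1) ∪ GG H c 1)) C) {t σ : ℝ} (ht : |t| = 1) (h1 : 1 - ε ≤ σ)
    (h2 : σ ≤ 1) : H ![t * σ, 0, c] ∈ C ↔ H ![t, 0, c] ∈ C := by
  have hc := h.cont
  have p : IsPreconnected ((fun a : ℝ => H ![t * a, 0, c]) '' Icc (1 - ε) 1) :=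
    isPreconnected_Icc.image _ (by fun_prop)
  have q : (fun a : ℝ => H ![t * a, 0, c]) '' Icc (1 - ε) 1 ⊆
      A ∩ B ∪ (GG H c (-1) ∪ GG H c 1) := by
    rintro _ ⟨a, ha, rfl⟩
    have e : |(![t * a, 0, c] : V) 0| = a := by
      show |t * a| = a
      rw [abs_mul, ht, one_mul, abs_of_nonneg (by linarith [ha.1, d.le])]
    exact (d.collar h s (by rw [e]; exact ha.1)).2 ⟨by rw [e]; exact ha.2, rfl⟩
  have m1 : H ![t * σ, 0, c] ∈ (fun a : ℝ => H ![t * a, 0, c]) '' Icc (1 - ε) 1 :=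
    ⟨σ, ⟨h1, h2⟩, rfl⟩
  have m2 : H ![t, 0, c] ∈ (fun a : ℝ => H ![t * a, 0, c]) '' Icc (1 - ε) 1 :=
    ⟨1, ⟨by linarith [d.pos], le_rfl⟩, by simp⟩
  exact ⟨fun k => hC.subset p q m1 k m2, fun k => hC.subset p q m2 k m1⟩

/-- the part of the surface at the first wall reaches the second wall -/
theorem reach (h : Per {1} H) (s : Spl (UU H c δ) A B) (d : Std H c δ ε A B) {C : Set V}
    (hC : Clop (A ∩ B ∪ (GG H c (-1) ∪ GG H c 1)) C) (h1 : H ![-1, 0, c] ∈ C) :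
    H ![1, 0, c] ∈ C := by
  classical
  by_contra h2
  have hc := h.cont
  have e0 := d.pos
  have e1 := d.le
  have e2 := d.lt
  have hC' : Clop (A ∩ B) (C ∩ (A ∩ B)) := ⟨inter_subset_right, fun x hx => by
    filter_upwards [hC.lc.mono subset_union_left x hx, self_mem_nhdsWithin] with y k1 k2
    rw [mem_inter_iff, mem_inter_iff x, k1, and_iff_left k2, and_iff_left hx]⟩
  let sd : V → Z2 := fun x => if x ∈ B then Multiplicative.ofAdd 1 else 1
  have sa : ∀ x ∈ UU H c δ \ B, sd x = 1 := fun x hx => if_neg hx.2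
  have sb : ∀ x ∈ B, sd x = Multiplicative.ofAdd 1 := fun x hx => if_pos hx
  have co := cross s.union s.clA s.clB hC' sa sb
  let F : ℝ × ℝ → V := fun p =>
    ![(1 - ε / 2) * (2 * p.1 - 1), 0, c + (δ - ε / 2) * (2 * p.2 - 1)]
  have cF : Continuous F := by fun_prop
  have b1 : ∀ a t : ℝ, 0 < a → t ∈ Icc (0 : ℝ) 1 → |a * (2 * t - 1)| ≤ a := fun a t ha ht =>
    abs_le.2 ⟨by nlinarith [ht.1], by nlinarith [ht.2]⟩
  have mU : ∀ p ∈ Icc (0 : ℝ) 1 ×ˢ Icc (0 : ℝ) 1, H (F p) ∈ UU H c δ := by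
    intro p hp
    refine (mem_UU h).2 ⟨(b1 _ _ (by linarith) hp.1).trans_lt (by linarith), ?_⟩
    show |c + _ - c| < δ
    rw [add_sub_cancel_left]
    exact (b1 _ _ (by linarith) hp.2).trans_lt (by linarith)
  have sq := hol_square co (F := fun p => H (F p)) (hc.comp cF).continuousOn mU
  have top : ∀ a, H (F (a, 1)) ∉ B := fun a k => by
    have : c + (δ - ε / 2) * (2 * 1 - 1) ≤ c + δ - ε := d.upB _ k
    linarith
  have bot : ∀ a, H (F (a, 0)) ∉ A := fun a k => by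
    have : c - δ + ε ≤ c + (δ - ε / 2) * (2 * 0 - 1) := d.lowA _ k
    linarith
  have wall : ∀ a t σ : ℝ, |σ| = 1 → 2 * a - 1 = σ → H (F (a, t)) ∈ A ∩ B →
      F (a, t) = ![σ * (1 - ε / 2), 0, c] := by
    intro a t σ k1 k2 k3
    have e : F (a, t) 0 = σ * (1 - ε / 2) := by
      show (1 - ε / 2) * (2 * a - 1) = _
      rw [k2, mul_comm]
    have := (d.collar h s (z := F (a, t)) (by
      rw [e, abs_mul, k1, one_mul, abs_of_pos (by linarith)]; linarith)).1 (Or.inl k3)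
    ext i; fin_cases i
    · exact e
    · rfl
    · exact this.2
  have one : ∀ γ : ℝ → V, Continuous γ → (∀ t, γ t ∉ C ∩ (A ∩ B)) →
      hol (fun x y => if x ∈ C ∩ (A ∩ B) then (sd x)⁻¹ * sd y else 1) γ = 1 := by
    intro γ k1 k2
    rw [hol_prim (prim_cross_one (T := (C ∩ (A ∩ B))ᶜ) fun _ k => k) k1.continuousOn
      fun t _ => k2 t]
    simp
  rw [one (fun a => H (F (a, 1))) (by fun_prop) (fun a k => top a k.2.2),
    one (fun a => H (F (a, 0))) (by fun_prop) (fun a k => bot a k.2.1),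
    one (fun t => H (F (1, t))) (by fun_prop) (fun t k => h2 (by
      have := wall 1 t 1 (by simp) (by norm_num) k.2
      exact (collar_iff h s d hC (t := 1) (σ := 1 - ε / 2) (by simp) (by linarith)
        (by linarith)).1 (this ▸ k.1))),
    hol_prim (prim_cross_sd (T := (fun t => H (F (0, t))) '' Icc 0 1) s sa sb
      (by rintro _ ⟨t, ht, rfl⟩; exact mU _ ⟨by simp, ht⟩)
      (by
        rintro _ ⟨t, -, rfl⟩ k
        refine ⟨?_, k⟩
        show H (F (0, t)) ∈ C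
        rw [wall 0 t (-1) (by simp) (by norm_num) k]
        exact (collar_iff h s d hC (t := -1) (σ := 1 - ε / 2) (by simp) (by linarith)
          (by linarith)).2 h1))
      (by fun_prop) (mapsTo_image _ _),
    sa _ ⟨mU _ ⟨by simp, by simp⟩, top 0⟩,
    sb _ ((s.union.superset (mU (0, 0) ⟨by simp, by simp⟩)).resolve_left (bot 0))] at sq
  revert sq
  decide

/-- cocycles on the cover of the compact surface -/
theorem tr_bar {G : Type*} [Group G] (h : Per {1} H) (s : Spl (UU H c δ) A B)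
    (d : Std H c δ ε A B)
    (inc : ∀ x (p : Path x x), (∀ t, p t ∈ A ∩ B) → NH (UU H c δ) p → NH (A ∩ B) p)
    {k : V → V → G} (hk : Coc (A ∩ B ∪ (GG H c (-1) ∪ GG H c 1)) k) :
    Tr (H ⁻¹' (A ∩ B ∪ (GG H c (-1) ∪ GG H c 1))) fun x y => k (H x) (H y) := by
  have e0 := d.pos
  have e1 := d.le
  have cv : Convex ℝ {x : V | |x 0| < 1 ∧ |x 2 - c| < δ} := by
    have e : {x : V | |x 0| < 1 ∧ |x 2 - c| < δ} = (fun x : V => x 0) ⁻¹' Ioo (-1) 1 ∩
        (fun x : V => x 2) ⁻¹' Ioo (c - δ) (c + δ) := by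
      ext x
      simp only [mem_ofPred_eq, mem_inter_iff, mem_preimage, mem_Ioo, abs_lt]
      constructor <;> rintro ⟨k1, k2, k3⟩ <;> exact ⟨k1, by linarith, by linarith⟩
    rw [e]
    exact ((convex_Ioo (-1 : ℝ) 1).is_linear_preimage (lin_coord 0)).inter
      ((convex_Ioo (c - δ) (c + δ)).is_linear_preimage (lin_coord (n := 3) 2))
  obtain ⟨b, hb⟩ := tr_cover h s.lcv.lpc cv (fun z hz => (mem_UU h).1 (s.subA hz.1))
    (fun z hz => (mem_UU h).2 hz) inc (hk.mono subset_union_left)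
  let R : V × ℝ → V := fun p =>
    ![max (-(1 - ε + ε * p.2)) (min (1 - ε + ε * p.2) (p.1 0)), p.1 1, p.1 2]
  have cR : Continuous R := by fun_prop
  have Rid : ∀ z t, |z 0| ≤ 1 - ε + ε * t → R (z, t) = z := by
    intro z t k
    ext i; fin_cases i
    · show max _ (min _ (z 0)) = z 0
      rw [min_eq_right (abs_le.1 k).2, max_eq_right (abs_le.1 k).1]
    · rfl
    · rfl
  have Rab : ∀ z t, 0 ≤ t → 1 - ε + ε * t ≤ |z 0| → |R (z, t) 0| = 1 - ε + ε * t := by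
    intro z t ht k
    have p : 0 ≤ 1 - ε + ε * t := by nlinarith
    show |max _ (min _ (z 0))| = _
    rcases le_abs'.1 k with q | q
    · rw [min_eq_right (by linarith), max_eq_left q, abs_neg, abs_of_nonneg p]
    · rw [min_eq_left q, max_eq_right (by linarith), abs_of_nonneg p]
  have mR : MapsTo R ((H ⁻¹' (A ∩ B ∪ (GG H c (-1) ∪ GG H c 1))) ×ˢ Icc 0 1)
      (H ⁻¹' (A ∩ B ∪ (GG H c (-1) ∪ GG H c 1))) := by
    rintro ⟨z, t⟩ ⟨hz, ht⟩
    have p1 : 0 ≤ ε * t := mul_nonneg e0.le ht.1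
    have p2 : ε * t ≤ ε := mul_le_of_le_one_right e0.le ht.2
    rcases le_total (|z 0|) (1 - ε + ε * t) with q | q
    · rw [Rid z t q]; exact hz
    · exact (d.collar h s (by rw [Rab z t ht.1 q]; linarith)).2
        ⟨by rw [Rab z t ht.1 q]; linarith, ((d.collar h s (by linarith)).1 hz).2⟩
  have m0 : MapsTo (fun z => R (z, 0)) (H ⁻¹' (A ∩ B ∪ (GG H c (-1) ∪ GG H c 1)))
      (H ⁻¹' (A ∩ B)) := by
    intro z hz
    refine (mR (show (z, (0 : ℝ)) ∈ _ from ⟨hz, by simp⟩)).resolve_right fun k => ?_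
    have k1 := ((mem_Gam h).1 k).1
    rcases le_total (|z 0|) (1 - ε + ε * 0) with q | q
    · rw [Rid z 0 q] at k1; linarith
    · rw [Rab z 0 le_rfl q] at k1; linarith
  obtain ⟨b1, hb1⟩ := (hk.comp h.cont.continuousOn fun _ k => k).homotopy cR.continuousOn mR
    (hb.comp (by fun_prop) m0)
  have r1 : ∀ z ∈ H ⁻¹' (A ∩ B ∪ (GG H c (-1) ∪ GG H c 1)), R (z, 1) = z := by
    intro z hz
    refine Rid z 1 ?_
    rcases hz with k | k
    · linarith [((mem_UU h).1 (s.subA k.1)).1]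
    · linarith [((mem_Gam h).1 k).1]
  exact ⟨b1, hb1.congr (geq_of_eq fun x hx y hy => by simp only [r1 x hx, r1 y hy])⟩

/-- `H¹(C) → H¹(Γ₁)` is injective -/
theorem h1rel (h : Per {1} H) (s : St (UU H c δ) (GG H c (-1) ∪ GG H c 1) A B)
    (d : Std H c δ ε A B)
    (inc : ∀ x (p : Path x x), (∀ t, p t ∈ A ∩ B) → NH (UU H c δ) p → NH (A ∩ B) p) {C : Set V}
    (hC : Clop (A ∩ B ∪ (GG H c (-1) ∪ GG H c 1)) C) (cC : IsPreconnected C)
    (h1 : GG H c (-1) ⊆ C) : H1Rel C (GG H c (-1)) := by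
  classical
  refine h1rel_of h1 fun k hk ⟨β, hβ⟩ => ?_
  have hr : C ⊆ range H := hC.sub.trans (sub_range s.spl)
  obtain ⟨b, hb⟩ := tr_bar h s.spl d inc (hC.ext hk)
  replace hb : Prim (H ⁻¹' C) (fun x y => k (H x) (H y)) b :=
    (hb.mono (preimage_mono hC.sub)).congr (geq_of_eq fun x hx y _ => if_pos hx)
  refine ⟨_, prim_desc h hr hb fun z hz l hl => ?_⟩
  have hb' : Prim (H ⁻¹' C) (fun x y => k (H x) (H y)) fun x => b (x + l) :=
    (hb.comp (T := H ⁻¹' C) (f := fun x => x + l) (by fun_prop) fun x hx => by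
      show H (x + l) ∈ C
      rw [per_add h x hl]; exact hx).congr
      (geq_of_eq fun x _ y _ => by simp only [per_add h _ hl])
  have x1 : H ![-1, 0, c] ∈ GG H c (-1) := (mem_GG h).2 ⟨rfl, rfl⟩
  obtain ⟨p, hp⟩ := (hC.lpc (Srf.lcv s.srf).lpc).joined cC hz (h1 x1)
  obtain ⟨w, q, hq⟩ := lift_path h p (fun t => hr (hp t)) (z := z) rfl
  have hw : H w ∈ GG H c (-1) := by
    have : H w = H ![-1, 0, c] := by simpa using hq 1
    rw [this]; exact x1
  have qC : range q ⊆ H ⁻¹' C := by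
    rintro _ ⟨t, rfl⟩
    show H (q t) ∈ C
    rw [hq]; exact hp t
  have k1 := ((hb.lco hb').mono qC).eq (isPreconnected_range q.continuous) ⟨0, q.source⟩
    ⟨1, q.target⟩
  have cv : Convex ℝ (H ⁻¹' GG H c (-1)) := by
    intro x hx y hy a a' _ _ haa
    obtain ⟨x0, x2⟩ := (mem_GG h).1 hx
    obtain ⟨y0, y2⟩ := (mem_GG h).1 hy
    refine (mem_GG h).2 ⟨?_, ?_⟩ <;>
      simp only [Pi.add_apply, Pi.smul_apply, smul_eq_mul, x0, x2, y0, y2]
    · linarith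
    · linear_combination c * haa
  have k2 := (hβ.comp (T := H ⁻¹' GG H c (-1)) h.cont.continuousOn fun _ k => k).uniq
    (hb.mono (preimage_mono h1)) cv.isPreconnected (x := w) (y := w + l) hw
    (by show H (w + l) ∈ GG H c (-1); rw [per_add h w hl]; exact hw)
  rw [per_add h w hl, inv_mul_cancel_right] at k2
  simp only [k2, mul_inv_cancel] at k1
  exact mul_inv_eq_one.1 k1

theorem loop_GG (h : Per {1} H) (hp : LocPL H (rim {0})) {s : ℝ} (hs : |s| = 1) :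
    Loop (GG H c s) fun t => H ![s, t, c] := by
  refine ⟨fun R => plOn_of_locPL (locPL_comp hp (locPL_of_plOn (pl_vec3 (plOn_const _ _)
    (plOn_id _) (plOn_const _ _)) univ) fun t _ => ⟨0, Finset.mem_singleton_self _, ?_⟩)
    isCompact_Icc (subset_univ _), range_GG h s, fun a b => ?_⟩
  · show 1 / 2 < |s|
    rw [hs]; norm_num
  · rw [h.fib, mem_lat1]; simp

/-- the annulus lifted to the cover and untwisted -/
theorem exists_lifted (h : Per {1} H) {C : Set V} (hr : C ⊆ range H) {g : P → V} (a : Ann C g)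
    (g1 : ∀ s, g ![-1, s] = H ![-1, s, c])
    (g2 : (∀ s, g ![1, s] = H ![1, s, c]) ∨ ∀ s, g ![1, s] = H ![1, -s, c]) :
    ∃ G : P → V, ContinuousOn G {y | |y 0| ≤ 1} ∧ InjOn G {y | |y 0| ≤ 1} ∧
      (∀ y, |y 0| ≤ 1 → ∀ n : ℤ, G (y + ![0, (n : ℝ)]) = G y + ![0, (n : ℝ), 0]) ∧
      (∀ y, |y 0| = 1 → G y = lv c y) ∧ LPL (fun y => H (G y)) {y | |y 0| ≤ 1} ∧
      ∀ y, |y 0| ≤ 1 → ∃ y', y' 0 = y 0 ∧ H (G y) = g y' := by
  set T : Set P := {y | |y 0| ≤ 1} with hT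
  have lg : LPL g T := fun y _ => ⟨1, one_pos, (a.pl (|y 1| + 1)).mono fun x hx => ⟨hx.2, by
    have k : |x 1 - y 1| < 1 := (norm_le_pi_norm (x - y) 1).trans_lt (mem_ball_iff_norm.1 hx.1)
    linarith [abs_sub_abs_le_abs_sub (x 1) (y 1)]⟩⟩
  have cv : Convex ℝ T := by
    have e : T = (fun x : P => x 0) ⁻¹' Icc (-1) 1 := by
      ext x
      simp only [hT, mem_ofPred_eq, mem_preimage, mem_Icc, abs_le]
    rw [e]
    exact (convex_Icc (-1 : ℝ) 1).is_linear_preimage (lin_coord (n := 2) 0)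
  have mT : ∀ s t : ℝ, |s| = 1 → (![s, t] : P) ∈ T := fun s t k => k.le
  obtain ⟨u, u1, u2, u3⟩ := exists_lift_convex h cv lg.continuousOn
    (fun y hy => hr (a.img.subset ⟨y, hy, rfl⟩)) (mT (-1) 0 (by simp)) (g1 0).symm
  have line : ∀ (s : ℝ) (γ : ℝ → V), |s| = 1 → Continuous γ → (∀ t, g ![s, t] = H (γ t)) →
      ∀ t, u ![s, t] - γ t = u ![s, 0] - γ 0 := fun s γ k1 k2 k3 t =>
    lift_uniq h (T := univ) isPreconnected_univ (g := fun t => u ![s, t]) (g' := γ)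
      (u1.comp (by fun_prop) fun t _ => mT s t k1) k2.continuousOn
      (fun t _ => by rw [u2 _ (mT s t k1), k3]) trivial trivial
  have l1 : ∀ t, u ![-1, t] = ![-1, t, c] := fun t => by
    have := line (-1) (fun t => ![-1, t, c]) (by simp) (by fun_prop) g1 t
    rwa [u3, sub_self, sub_eq_zero] at this
  have aT : ∀ y ∈ T, ∀ r : ℝ, y + ![0, r] ∈ T := fun y hy r => by
    show |(y + ![0, r] : P) 0| ≤ 1
    rw [ad0]; exact hy
  have eqv : ∀ y ∈ T, ∀ n : ℤ, u (y + ![0, (n : ℝ)]) = u y + ![0, (n : ℝ), 0] := by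
    intro y hy n
    have := lift_uniq h cv.isPreconnected (g := fun y => u (y + ![0, (n : ℝ)])) (g' := u)
      (u1.comp (by fun_prop) fun y hy => aT y hy n) u1
      (fun y hy => by
        rw [u2 _ (aT y hy n), u2 y hy]
        exact (a.fib _ _ (aT y hy n) hy).2 ⟨ad0 _ _, n, by rw [ad1]; ring⟩)
      (mT (-1) 0 (by simp)) hy
    rw [show (![-1, 0] : P) + ![0, (n : ℝ)] = ![-1, (n : ℝ)] by simp, l1, l1] at this
    rw [← sub_eq_iff_eq_add', this]
    ext i; fin_cases i <;> simp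
  obtain ⟨m, l2⟩ : ∃ m : ℤ, ∀ t, u ![1, t] = ![1, t + m, c] := by
    rcases g2 with g2 | g2
    · obtain ⟨k0, ⟨m, k1⟩, k2⟩ := mem_lat1.1 ((h.fib _ _).1 ((u2 _ (mT 1 0 (by simp))).trans (g2 0)))
      refine ⟨m, fun t => ?_⟩
      have := line 1 (fun t => ![1, t, c]) (by simp) (by fun_prop) g2 t
      rw [sub_eq_iff_eq_add] at this
      rw [this]
      ext i; fin_cases i
      · simp only [Fin.zero_eta, Pi.add_apply, k0]; simp
      · simp only [Fin.mk_one, Pi.add_apply, k1]; simp [add_comm]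
      · simp only [Fin.reduceFinMk, Pi.add_apply, k2]; simp
    · have k1 := congrFun (line 1 (fun t => ![1, -t, c]) (by simp) (by fun_prop) g2 1) 1
      have k2 := congrFun (eqv _ (mT 1 0 (by simp)) 1) 1
      simp at k1 k2
      linarith
  let τ : P → P := fun y => y + ![0, -(m * (y 0 + 1) / 2)]
  have pτ : PLOn τ univ := pl_add (plOn_id _) (pl_vec2 (plOn_const _ _) (pl_neg
    ((pl_mul ((m : ℝ) / 2) (pl_add (pl_coord 0 _) (plOn_const 1 _))).congr fun y _ => by ring)))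
  have τT : MapsTo τ T T := fun y hy => aT y hy _
  have τ0 : ∀ y, τ y 0 = y 0 := fun y => ad0 _ _
  have τ1 : ∀ y, τ y 1 = y 1 - m * (y 0 + 1) / 2 := fun y => (ad1 _ _).trans (by ring)
  refine ⟨fun y => u (τ y), u1.comp (continuousOn_univ.1 pτ.1).continuousOn τT,
    fun y hy y' hy' e => ?_, fun y hy n => ?_, fun y hy => ?_,
    lpl_congr (lg.comp (Lad50.lpl_of_plOn (pτ.mono (subset_univ _))) τT) fun y hy => u2 _ (τT hy),
    fun y hy => ⟨τ y, τ0 y, u2 _ (τT hy)⟩⟩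
  · have e' : u (τ y) = u (τ y') := e
    obtain ⟨k0, n, k1⟩ := (a.fib _ _ (τT hy) (τT hy')).1
      (by rw [← u2 _ (τT hy), ← u2 _ (τT hy'), e'])
    have k2 : τ y = τ y' + ![0, (n : ℝ)] := by
      ext i; fin_cases i
      · exact k0.trans (ad0 _ _).symm
      · show τ y 1 = τ y' 1 + n
        linarith
    have k3 := congrFun (eqv _ (τT hy') n) 1
    rw [← k2, e'] at k3
    simp only [Pi.add_apply, Matrix.cons_val_one, Matrix.cons_val_zero] at k3
    rw [τ0, τ0] at k0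
    rw [τ1, τ1, k0] at k1
    ext i; fin_cases i
    · exact k0
    · show y 1 = y' 1
      linarith
  · show u (τ (y + ![0, (n : ℝ)])) = u (τ y) + _
    rw [← eqv _ (τT hy) n]
    congr 1
    ext i; fin_cases i
    · exact ((τ0 _).trans (ad0 _ _)).trans ((ad0 _ _).trans (τ0 _)).symm
    · show τ (y + ![0, (n : ℝ)]) 1 = τ y 1 + n
      rw [τ1, τ1, ad0, ad1]; ring
  · show u (τ y) = _
    have e : τ y = ![τ y 0, τ y 1] := by ext i; fin_cases i <;> rfl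
    rw [e, τ0, τ1]
    rcases (abs_eq zero_le_one).1 hy with k | k
    · rw [k, l2, lv, k]; congr 2; ring_nf
    · rw [k, l1, lv, k]; congr 2; ring_nf

theorem mem_out0 {x : V} : x ∈ out {0} ↔ 1 ≤ |x 0| := by simp [out]

/-- the rung for a periodic embedding -/
theorem rung_of (hI : IncStmt) (hL : LevStmt) (hA : AnnRec) (h : Per {1} H)
    (hp : LocPL H (rim {0})) (c : ℝ) (hδ : 0 < δ) : ∃ u, Rung {0} {1} H c δ u := by
  classical
  obtain ⟨A, B, ε, s, d, inc⟩ := exists_inc hI hL h hp c hδ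
  have x1 : H ![-1, 0, c] ∈ GG H c (-1) := (mem_GG h).2 ⟨rfl, rfl⟩
  have x2 : H ![1, 0, c] ∈ GG H c 1 := (mem_GG h).2 ⟨rfl, rfl⟩
  set C := connectedComponentIn (A ∩ B ∪ (GG H c (-1) ∪ GG H c 1)) (H ![-1, 0, c]) with hCd
  have hC : Clop _ C := (Srf.lcv s.srf).lpc.clop _
  have m1 : H ![-1, 0, c] ∈ C := mem_connectedComponentIn (Or.inr (Or.inl x1))
  have cC : IsConnected C := ⟨⟨_, m1⟩, isPreconnected_connectedComponentIn⟩
  have s1 : GG H c (-1) ⊆ C := hC.subset (conn_GG h _) (fun _ k => Or.inr (Or.inl k)) x1 m1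
  have s2 : GG H c 1 ⊆ C := hC.subset (conn_GG h _) (fun _ k => Or.inr (Or.inr k)) x2
    (reach h s.spl d hC m1)
  have sf : Srf C (GG H c (-1) ∪ GG H c 1) := by
    have := Srf.clop s.srf hC
    rwa [inter_eq_self_of_subset_left (union_subset s1 s2)] at this
  have dj : Disjoint (GG H c (-1)) (GG H c 1) := by
    rw [disjoint_left]
    intro y k1 k2
    obtain ⟨z, rfl⟩ := Im_sub k1
    linarith [((mem_GG h).1 k1).1, ((mem_GG h).1 k2).1]
  obtain ⟨g, a, g1, g2⟩ := hA C _ _ _ _ sf dj cC (h1rel h s d inc hC cC.2 s1)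
    (loop_GG h hp (by simp)) (loop_GG h hp (by simp))
  obtain ⟨G, G1, G2, G3, G4, G5, G6⟩ :=
    exists_lifted h (hC.sub.trans (sub_range s.spl)) a g1 g2
  have mS : ∀ y : P, |y 0| ≤ 1 → H (G y) ∈ A ∩ B ∪ (GG H c (-1) ∪ GG H c 1) := by
    intro y hy
    obtain ⟨y', k1, k2⟩ := G6 y hy
    rw [k2]
    exact hC.sub (a.img.subset ⟨y', by show |y' 0| ≤ 1; rw [k1]; exact hy, rfl⟩)
  have mU : ∀ y : P, |y 0| < 1 → H (G y) ∈ UU H c δ := by
    intro y hy
    refine s.spl.subA ((mS y hy.le).resolve_right ?_).1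
    obtain ⟨y', k1, k2⟩ := G6 y hy.le
    have key : ∀ σ t : ℝ, |σ| = 1 → H (G y) ≠ g ![σ, t] := fun σ t k e => by
      have : y' 0 = σ := ((a.fib y' ![σ, t] (by rw [k1]; exact hy.le) k.le).1 (k2 ▸ e)).1
      rw [← k1, this, k] at hy
      exact lt_irrefl _ hy
    rintro (k | k)
    · obtain ⟨t, ht⟩ := (range_GG h _).superset k
      exact key (-1) t (by simp) (ht.symm.trans (g1 t).symm)
    · obtain ⟨t, ht⟩ := (range_GG h _).superset k
      rcases g2 with g2 | g2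
      · exact key 1 t (by simp) (ht.symm.trans (g2 t).symm)
      · exact key 1 (-t) (by simp) (ht.symm.trans (by rw [g2, neg_neg]))
  let u : P → V := fun y => if |y 0| ≤ 1 then G y else lv c y
  have u1 : ∀ y : P, |y 0| ≤ 1 → u y = G y := fun y hy => if_pos hy
  have u2 : ∀ y : P, 1 ≤ |y 0| → u y = lv c y := fun y hy => by
    by_cases k : |y 0| ≤ 1
    · rw [u1 y k, G4 y (le_antisymm k hy)]
    · exact if_neg k
  have c1 : IsClosed {y : P | |y 0| ≤ 1} := isClosed_le (by fun_prop) continuous_const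
  have c2 : IsClosed {y : P | 1 ≤ |y 0|} := isClosed_le continuous_const (by fun_prop)
  have ins : ∀ y : P, |y 0| < 1 → |u y 0| < 1 := fun y hy => by
    rw [u1 y hy.le]; exact ((mem_UU h).1 (mU y hy)).1
  refine ⟨u, ?_, fun y y' e => ?_, fun y m hm => ?_, fun y hy => u2 y (mem_out0.1 hy),
    fun y hy k => ?_, fun y => ?_, ?_⟩
  · rw [← continuousOn_univ, ← eq_univ_of_forall (s := {y : P | |y 0| ≤ 1} ∪ {y : P | 1 ≤ |y 0|})
      fun y => le_total (|y 0|) 1]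
    exact (G1.congr u1).union_of_isClosed ((Lad50.continuous_lv c).continuousOn.congr u2) c1 c2
  · have key : ∀ y y' : P, u y = u y' → |y 0| < 1 → |y' 0| < 1 := fun y y' e hy => by
      by_contra k
      have := ins y hy
      rw [e, u2 y' (not_lt.1 k)] at this
      exact k this
    by_cases hy : |y 0| < 1
    · have hy' := key y y' e hy
      rw [u1 y hy.le, u1 y' hy'.le] at e
      exact G2 hy.le hy'.le e
    · have hy' : ¬ |y' 0| < 1 := fun k => hy (key y' y e.symm k)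
      rw [u2 y (not_lt.1 hy), u2 y' (not_lt.1 hy')] at e
      exact lv_injective c e
  · obtain ⟨k0, ⟨n, k1⟩, -⟩ := mem_lat1.1 hm
    have e : m = ![0, (n : ℝ)] := by
      ext i; fin_cases i
      · exact k0
      · exact k1
    subst e
    have e0 := ad0 y n
    rcases le_total (|y 0|) 1 with k | k
    · rw [u1 y k, u1 _ (by rw [e0]; exact k), G3 y k n]; rfl
    · rw [u2 y k, u2 _ (by rw [e0]; exact k)]
      ext i; fin_cases i <;> simp [lv]
  · exact (ins y (not_le.1 fun q => hy (mem_out0.2 q))).not_ge (mem_out0.1 k)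
  · rcases lt_or_ge (|y 0|) 1 with k | k
    · rw [u1 y k.le]; exact ((mem_UU h).1 (mU y k)).2
    · rw [u2 y k]
      show |c - c| < δ
      rw [sub_self, abs_zero]; exact hδ
  · refine locPL_of_closed c1 c2 (fun y hy => (le_total (|y 0|) 1).resolve_left hy)
      (lpl_congr G5 fun y hy => congrArg H (u1 y hy))
      (lpl_of_locPL (locPL_comp (Ω := {y : P | 1 ≤ |y 0|}) hp (locPL_of_plOn (plOn_lv c _) _)
        fun y hy => out_subset_rim _ (mem_out0.2 hy)) Subset.rfl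
        fun y hy => congrArg H (u2 y hy))

/-- **(RUNG1)** -/
theorem rung1 (hI : IncStmt) (hL : LevStmt) (hA : AnnRec) : Rung1Stmt := by
  intro pl ρ hP h hh hp c δ hδ
  exact rung_of hI hL hA (per_comp_qq hP hh) (locPL_comp hp
    (locPL_mono (locPL_qq hP) (subset_univ _)) fun x ⟨i, hi, hx⟩ => ⟨i, hi, by
      rw [Finset.mem_singleton.1 hi] at hx ⊢; exact hx⟩) c hδ

end Crest.Agent.X212.Rg3
end

-- ▼ part X212/Thk1/Flat
section

/-!
# X212 / T layer / THICK (helper1), part 3: PL discs and half discs in three-space are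
locally flat (cone on the link)
-/

set_option autoImplicit false

open Set Metric Topology Filter

namespace Crest.Agent.X212.Thk1

open Crest.Agent.R096 Crest.Agent.R096.Ce_537 Crest.Agent.R096.Cb_609 Crest.Agent.R096.Gn_296

section conic

variable {E F : Type*} [NormedAddCommGroup E] [NormedSpace ℝ E] [NormedAddCommGroup F]
  [NormedSpace ℝ F]

theorem conic_pl {H : E → F} {S : Finset (E →L[ℝ] F)} (h : Str_696.Conic H S) (K : Set E) :
    PLOn H K := by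
  classical
  refine ⟨h.cont.continuousOn, S.image fun A : E →L[ℝ] F => (A : E →ₗ[ℝ] F).toAffineMap, fun x _ => ?_⟩
  obtain ⟨A, hA, e⟩ := h.sel x
  exact ⟨_, Finset.mem_image_of_mem _ hA, e⟩

theorem exists_conic [FiniteDimensional ℝ E] {ψ : E → F} {r : ℝ} (hr : 0 < r)
    (h : PLOn ψ (ball 0 r)) : ∃ (ρ : ℝ) (S : Finset (E →L[ℝ] F)) (H : E → F), 0 < ρ ∧
      Str_696.Conic H S ∧ ∀ v : E, ‖v‖ < ρ → ψ v = ψ 0 + H v := by
  have h1 : Str_696.LocPL ψ {0} := by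
    rintro x rfl
    obtain ⟨h1, S, h2⟩ := h
    exact ⟨r, hr, S, h1, h2⟩
  obtain ⟨ρ, S, H, h2, h3, h4⟩ := h1.conic (mem_singleton 0)
  exact ⟨ρ, S, H, h2, h3, fun v hv => by simpa using h4 v hv⟩

theorem small {ρ : ℝ} (hρ : 0 < ρ) (v : E) : ∃ t : ℝ, 0 < t ∧ ‖t • v‖ < ρ := by
  refine ⟨ρ / (‖v‖ + 1), by positivity, ?_⟩
  rw [norm_smul, Real.norm_eq_abs, abs_of_pos (by positivity), div_mul_eq_mul_div,
    div_lt_iff₀ (by positivity)]
  nlinarith [norm_nonneg v]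

theorem conic_of_pl [FiniteDimensional ℝ E] {K : E → F} (h : PLOn K univ)
    (hh : ∀ (t : ℝ) (v : E), 0 ≤ t → K (t • v) = t • K v) : ∃ S, Str_696.Conic K S := by
  obtain ⟨ρ, S, H, h1, h2, h3⟩ := exists_conic one_pos (h.mono (subset_univ _))
  have h0 : K 0 = 0 := by simpa using hh 0 0 le_rfl
  have e : K = H := by
    funext v
    obtain ⟨t, ht, htv⟩ := small h1 v
    have h4 := h3 _ htv
    rw [h0, zero_add, hh t v ht.le, h2.homog t v ht.le] at h4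
    exact smul_right_injective F ht.ne' h4
  exact ⟨S, e ▸ h2⟩

end conic

/-- **radial rescaling** preserving the sign of a form -/
theorem rescale {m n : ℕ} {H : (Fin m → ℝ) → Fin n → ℝ} (hH : PLOn H univ)
    (hh : ∀ (t : ℝ) v, 0 ≤ t → H (t • v) = t • H v) (h0 : ∀ v, v ≠ 0 → H v ≠ 0)
    (ℓ : (Fin m → ℝ) →L[ℝ] ℝ) :
    ∃ f g : (Fin m → ℝ) → Fin m → ℝ, PLOn f univ ∧ (∀ v, g (f v) = v) ∧ (∀ v, f (g v) = v) ∧
      (∀ v, ‖H (f v)‖ = ‖v‖) ∧ (∀ (t : ℝ) v, 0 ≤ t → f (t • v) = t • f v) ∧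
      (∀ v, 0 ≤ ℓ (f v) ↔ 0 ≤ ℓ v) ∧ ∀ v, ℓ (f v) ≤ 0 ↔ ℓ v ≤ 0 := by
  classical
  obtain ⟨S, hS⟩ := conic_of_pl (K := fun v => (‖H v‖, ‖v‖))
    (pl_pair (pl_norm hH) (pl_norm' _)) (fun t v ht => by
      simp only [hh t v ht, norm_smul, Real.norm_eq_abs, abs_of_nonneg ht, Prod.smul_mk,
        smul_eq_mul])
  obtain ⟨ι, _, F, hl, -, hv, hsign⟩ := Fan_696.exists_Fan hS {ℓ}
  have hp : ∀ c ∈ F.T, ∃ L : (Fin m → ℝ) →L[ℝ] ℝ, ∀ x ∈ F.cone c, ‖H x‖ = L x := fun c hc => by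
    obtain ⟨A, -, hA⟩ := hl c hc
    exact ⟨(ContinuousLinearMap.fst ℝ ℝ ℝ).comp A, fun x ⟨a, ha⟩ => congrArg Prod.fst (hA a x ha)⟩
  have hq : ∀ c ∈ F.T, ∃ L : (Fin m → ℝ) →L[ℝ] ℝ, ∀ x ∈ F.cone c, ‖x‖ = L x := fun c hc => by
    obtain ⟨A, -, hA⟩ := hl c hc
    exact ⟨(ContinuousLinearMap.snd ℝ ℝ ℝ).comp A, fun x ⟨a, ha⟩ => congrArg Prod.snd (hA a x ha)⟩
  have p0 : ∀ i, 0 < ‖H (F.v i)‖ := fun i => norm_pos_iff.2 (h0 _ (hv i))
  have q0 : ∀ i, 0 < ‖F.v i‖ := fun i => norm_pos_iff.2 (hv i)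
  have key : ∀ r s : ι → ℝ, (∀ i, 0 ≤ r i) → (∀ i, r i * s i = 1) →
      ∀ x, F.map (fun i => s i • F.v i) (F.map (fun i => r i • F.v i) x) = x := by
    intro r s hr hrs x
    have h := F.co_rep x
    have e1 : F.map (fun i => r i • F.v i) x = ∑ i, F.co x i • (r i • F.v i) := rfl
    rw [e1, F.map_of_rep _ (F.cell_mem x) (Pb_715.rep_scale F hr h)]
    conv_rhs => rw [← h.sum]
    refine Finset.sum_congr rfl fun i _ => ?_
    rw [smul_smul, mul_assoc, hrs, mul_one]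
  have sgn : ∀ r : ι → ℝ, (∀ i, 0 ≤ r i) → ∀ (ε : ℝ) x, 0 ≤ ε * ℓ x → (ε = 1 ∨ ε = -1) →
      0 ≤ ε * ℓ (F.map (fun i => r i • F.v i) x) := by
    intro r hr ε x hx hε
    have h := F.co_rep x
    have e1 : ε * ℓ (F.map (fun i => r i • F.v i) x) =
        ∑ i, r i * (F.co x i * (ε * ℓ (F.v i))) := by
      rw [Fp_812.Fan.map, map_sum, Finset.mul_sum]
      refine Finset.sum_congr rfl fun i _ => ?_
      simp only [map_smul, smul_eq_mul]; ring
    have e2 : ε * ℓ x = ∑ i, F.co x i * (ε * ℓ (F.v i)) := by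
      conv_lhs => rw [← h.sum]
      rw [map_sum, Finset.mul_sum]
      refine Finset.sum_congr rfl fun i _ => ?_
      simp only [map_smul, smul_eq_mul]; ring
    have hs : (∀ i ∈ F.cell x, 0 ≤ ε * ℓ (F.v i)) ∨ ∀ i ∈ F.cell x, ε * ℓ (F.v i) ≤ 0 := by
      rcases hsign _ (F.cell_mem x) ℓ (Finset.mem_singleton_self _) with h1 | h1 <;>
        rcases hε with rfl | rfl
      · exact Or.inl fun i hi => by linarith [h1 i hi]
      · exact Or.inr fun i hi => by linarith [h1 i hi]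
      · exact Or.inr fun i hi => by linarith [h1 i hi]
      · exact Or.inl fun i hi => by linarith [h1 i hi]
    rw [e1]
    rcases hs with h1 | h1
    · refine Finset.sum_nonneg fun i _ => mul_nonneg (hr i) ?_
      by_cases hi : i ∈ F.cell x
      · exact mul_nonneg (h.nonneg i) (h1 i hi)
      · rw [h.off i hi, zero_mul]
    · have h2 : ∀ i ∈ Finset.univ, F.co x i * (ε * ℓ (F.v i)) ≤ 0 := fun i _ => by
        by_cases hi : i ∈ F.cell x
        · exact mul_nonpos_of_nonneg_of_nonpos (h.nonneg i) (h1 i hi)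
        · rw [h.off i hi, zero_mul]
      have h3 := (Finset.sum_eq_zero_iff_of_nonpos h2).1
        (le_antisymm (Finset.sum_nonpos h2) (e2 ▸ hx))
      exact Finset.sum_nonneg fun i hi => by rw [h3 i hi, mul_zero]
  have r0 : ∀ i, 0 ≤ ‖F.v i‖ / ‖H (F.v i)‖ := fun i => by positivity
  have s0 : ∀ i, 0 ≤ ‖H (F.v i)‖ / ‖F.v i‖ := fun i => by positivity
  have rs : ∀ i, ‖F.v i‖ / ‖H (F.v i)‖ * (‖H (F.v i)‖ / ‖F.v i‖) = 1 := fun i => by
    have := (p0 i).ne'; have := (q0 i).ne'; field_simp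
  have gf := key _ _ r0 rs
  refine ⟨F.map fun i => (‖F.v i‖ / ‖H (F.v i)‖) • F.v i,
    F.map fun i => (‖H (F.v i)‖ / ‖F.v i‖) • F.v i, Pb_715.plOn_map F _ _, gf,
    key _ _ s0 fun i => by rw [mul_comm]; exact rs i, fun x => ?_,
    fun t v ht => F.map_smul _ ht v, fun v => ⟨fun h => ?_, fun h => ?_⟩,
    fun v => ⟨fun h => ?_, fun h => ?_⟩⟩
  · have h := F.co_rep x
    have e1 : F.map (fun i => (‖F.v i‖ / ‖H (F.v i)‖) • F.v i) x =
        ∑ i, F.co x i • ((‖F.v i‖ / ‖H (F.v i)‖) • F.v i) := rfl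
    rw [e1, Pb_715.val_of_rep F (p := fun x => ‖H x‖) hp (F.cell_mem x)
      (Pb_715.rep_scale F r0 h), Pb_715.val_of_rep F (p := fun x => ‖x‖) hq (F.cell_mem x) h]
    refine Finset.sum_congr rfl fun i _ => ?_
    have := (p0 i).ne'
    field_simp
  · have := sgn _ s0 1 _ (by rwa [one_mul]) (Or.inl rfl)
    rwa [gf, one_mul] at this
  · simpa using sgn _ r0 1 v (by rwa [one_mul]) (Or.inl rfl)
  · have := sgn _ s0 (-1) _ (by linarith) (Or.inr rfl)
    rw [gf] at this; linarith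
  · have := sgn _ r0 (-1) v (by linarith) (Or.inr rfl)
    linarith

theorem cone_mem {k : ℕ} {η : (Fin k → ℝ) → Fin k → ℝ} {T T₀ : Set (Fin k → ℝ)}
    (hT : ∀ t : ℝ, 0 < t → ∀ v ∈ T, t • v ∈ T) (hT₀ : ∀ t : ℝ, 0 < t → ∀ v ∈ T₀, t • v ∈ T₀)
    (h0 : (0 : Fin k → ℝ) ∈ T) (h0' : (0 : Fin k → ℝ) ∈ T₀)
    (h : ∀ y ∈ sph k, η y ∈ T ↔ y ∈ T₀) (y : Fin k → ℝ) : cone η y ∈ T ↔ y ∈ T₀ := by
  by_cases hy : y = 0
  · subst hy; rw [cone_zero]; exact iff_of_true h0 h0'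
  · have hn : 0 < ‖y‖ := norm_pos_iff.2 hy
    have h1 := h _ (smul_mem_sph hy)
    constructor
    · intro h2
      have h3 := hT _ (inv_pos.2 hn) _ h2
      rw [cone, smul_smul, inv_mul_cancel₀ hn.ne', one_smul, h1] at h3
      have h4 := hT₀ _ hn _ h3
      rwa [smul_smul, mul_inv_cancel₀ hn.ne', one_smul] at h4
    · intro h2
      exact hT _ hn _ (h1.2 (hT₀ _ (inv_pos.2 hn) _ h2))

/-- exchange of the coordinates `0` and `2` -/
def sw (y : Fin 3 → ℝ) : Fin 3 → ℝ := fun j => y (Equiv.swap 0 2 j)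

theorem sw_sw (y : Fin 3 → ℝ) : sw (sw y) = y := by funext j; simp [sw]

theorem sw_zero (y : Fin 3 → ℝ) : sw y 0 = y 2 := by simp [sw]

theorem sw_two (y : Fin 3 → ℝ) : sw y 2 = y 0 := by simp [sw]

theorem norm_sw (y : Fin 3 → ℝ) : ‖sw y‖ = ‖y‖ := by
  have h : ∀ y, ‖sw y‖ ≤ ‖y‖ := fun y =>
    (pi_norm_le_iff_of_nonneg (norm_nonneg _)).2 fun j => norm_le_pi_norm y _
  exact le_antisymm (h y) (by simpa only [sw_sw] using h (sw y))

theorem pl_sw (K : Set (Fin 3 → ℝ)) : PLOn sw K := pl_pi fun _ => pl_coord (plOn_id K) _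

/-- the exchange as a PL equivalence -/
def swE {A B : Set (Fin 3 → ℝ)} (h : ∀ y, sw y ∈ B ↔ y ∈ A) : PLEquiv A B :=
  ⟨sw, sw, pl_sw _, pl_sw _, fun y hy => (h y).2 hy, fun y hy => by rw [← h, sw_sw]; exact hy,
    fun y _ => sw_sw y, fun y _ => sw_sw y⟩

section mem

variable {E F : Type*} [NormedAddCommGroup E] [NormedSpace ℝ E] [NormedAddCommGroup F]
  [NormedSpace ℝ F]

theorem mem_image_iff {A : Set E} {B : Set F} (e : PLEquiv A B) {A' : Set E} {B' : Set F}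
    (hA : A' ⊆ A) (h : e.f '' A' = B') {x : E} (hx : x ∈ A) : e.f x ∈ B' ↔ x ∈ A' := by
  rw [← h]
  exact e.injOn.mem_image_iff hA hx

/-- change of the two sets along equalities -/
def cast {A A' : Set E} {B B' : Set F} (e : PLEquiv A B) (hA : A = A') (hB : B = B') :
    PLEquiv A' B' :=
  e.restr hA.ge hB.ge (fun _ hx => hB.le (e.mf (hA.ge hx))) (fun _ hy => hA.le (e.mg (hB.ge hy)))

end mem

/-- a circle on the sphere is an equator -/
theorem theta_int {D Γ : Set (Fin 3 → ℝ)} (h : IsBall 2 D Γ) (hΓ : Γ ⊆ sph 3) :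
    ∃ θ : PLEquiv (sph 3) (sph 3), ∀ y ∈ sph 3, (θ.f y ∈ Γ ↔ y 2 = 0) := by
  obtain ⟨A, B, hp, hAB⟩ := sphere_sides (isBall_cube 3) (circle_of_disc h) hΓ
  obtain ⟨th, h1, h2⟩ := exists_theta hp
  have hs : ∀ y, sw y ∈ sph 3 ↔ y ∈ sph 3 := fun y => by
    simp only [sph, mem_sphere_zero_iff_norm, norm_sw]
  refine ⟨(swE hs).trans (cast th.symm rfl hAB), fun y hy => ?_⟩
  have h3 : sw y ∈ sph 3 := (hs y).2 hy
  show th.g (sw y) ∈ Γ ↔ _
  rw [← hp.inter, mem_inter_iff, ← mem_image_iff th subset_union_left h1 (th.mg h3),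
    ← mem_image_iff th subset_union_right h2 (th.mg h3), th.ri _ h3, ← sw_zero y]
  exact ⟨fun h => le_antisymm h.2.2 h.1.2, fun h => ⟨⟨h3, h.ge⟩, h3, h.le⟩⟩

/-- two proper arcs in the upper hemisphere -/
theorem theta_arcs {α dα β dβ : Set (Fin 3 → ℝ)} (hα : IsBall 1 α dα) (hβ : IsBall 1 β dβ)
    (h1 : α ⊆ Hp 2) (h2 : β ⊆ Hp 2) (h3 : α ∩ He 2 = dα) (h4 : β ∩ He 2 = dβ) :
    ∃ θ : PLEquiv (sph 3) (sph 3), θ.f '' α = β ∧ θ.f '' Hp 2 = Hp 2 ∧ θ.f '' He 2 = He 2 := by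
  obtain ⟨p, q, -, rfl⟩ := exists_ends hα
  obtain ⟨p', q', -, rfl⟩ := exists_ends hβ
  have hm := ballPair_cube 2
  obtain ⟨K₁, K₂, S₁, S₂, -, a1, a2, a3, a4, a5⟩ := cut_disc hm.ball₁ hα h1 h3
  obtain ⟨L₁, L₂, T₁, T₂, -, b1, b2, b3, b4, b5⟩ := cut_disc hm.ball₁ hβ h2 h4
  obtain ⟨e, he, -⟩ := hα.exists_equiv hβ
  obtain ⟨e₁, c1, c2, c3⟩ := a2.extend b2 e he
  obtain ⟨e₂, d1, d2, d3⟩ := a3.extend b3 e he
  have hf : EqOn e₁.f e₂.f (K₁ ∩ K₂) := by rw [a5]; exact c1.trans d1.symm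
  have hg : EqOn e₁.g e₂.g (L₁ ∩ L₂) := by rw [b5]; exact c2.trans d2.symm
  set u := glue e₁ e₂ a2.ball.isClosed a3.ball.isClosed b2.ball.isClosed b3.ball.isClosed hf hg
  have u1 : EqOn u.f e₁.f K₁ := glue_f₁ _ _ _ _ _ _ _ _
  have u2 : EqOn u.f e₂.f K₂ := glue_f₂ _ _ _ _ _ _ _ _
  have uα : u.f '' α = β := by
    rw [(u1.mono a2.subset₁).image_eq, c1.image_eq, e.image_eq]
  have uE : u.f '' He 2 = He 2 := by
    conv_lhs => rw [← a1]
    rw [image_union, (u1.mono a2.subset₂).image_eq, (u2.mono a3.subset₂).image_eq, c3, d3, b1]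
  let U : PLEquiv (Hp 2) (Hp 2) := cast u a4 b4
  have hE : He 2 ⊆ Hp 2 := hm.ball₁.subset
  obtain ⟨w, w1, w2⟩ := hm.ball₂.extend hm.ball₂ (cast (U.restrImage hE) rfl uE)
  have hf' : EqOn U.f w.f (Hp 2 ∩ Hm 2) := by rw [hm.inter]; exact w1.symm
  have hg' : EqOn U.g w.g (Hp 2 ∩ Hm 2) := by rw [hm.inter]; exact w2.symm
  set z := glue U w hm.ball₁.isClosed hm.ball₂.isClosed hm.ball₁.isClosed hm.ball₂.isClosed
    hf' hg'
  have z1 : EqOn z.f U.f (Hp 2) := glue_f₁ _ _ _ _ _ _ _ _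
  refine ⟨cast z (Hp_union_Hm 2) (Hp_union_Hm 2), ?_, ?_, ?_⟩
  · exact (z1.mono h1).image_eq.trans uα
  · exact z1.image_eq.trans U.image_eq
  · exact (z1.mono hE).image_eq.trans uE

/-- the standard plane `y 2 = 0` -/
def J (v : Fin 2 → ℝ) : Fin 3 → ℝ := ![v 0, v 1, 0]

theorem pl_J (K : Set (Fin 2 → ℝ)) : PLOn J K := pl_pi fun i => by
  fin_cases i
  · exact pl_coord (plOn_id K) 0
  · exact pl_coord (plOn_id K) 1
  · exact plOn_const 0 K

theorem J_inj : Function.Injective J := fun v w h => by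
  funext i
  fin_cases i
  · exact congrFun h 0
  · exact congrFun h 1

theorem norm_J (v : Fin 2 → ℝ) : ‖J v‖ = ‖v‖ := by
  apply le_antisymm
  · refine (pi_norm_le_iff_of_nonneg (norm_nonneg _)).2 fun i => ?_
    fin_cases i
    · exact norm_le_pi_norm v 0
    · exact norm_le_pi_norm v 1
    · simp [J]
  · refine (pi_norm_le_iff_of_nonneg (norm_nonneg _)).2 fun i => ?_
    fin_cases i
    · exact norm_le_pi_norm (J v) 0
    · exact norm_le_pi_norm (J v) 1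

theorem J_surj {y : Fin 3 → ℝ} (hy : y 2 = 0) : J ![y 0, y 1] = y := by
  funext i
  fin_cases i
  · rfl
  · rfl
  · exact hy.symm

/-- **local flatness**.  `ψ` parametrises a surface germ (`b` false) or a half surface germ
standing on the wall `y 0 = 0` of the half space `0 ≤ y 0` (`b` true). -/
theorem model (b : Prop) {ψ : (Fin 2 → ℝ) → Fin 3 → ℝ} {r : ℝ} (hr : 0 < r)
    (hψ : PLOn ψ (ball 0 r)) (h0 : ∀ v, ‖v‖ < r → ψ v = ψ 0 → v = 0)
    (hi : InjOn ψ {v | ‖v‖ < r ∧ (b → 0 ≤ v 0)})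
    (hb : b → ∀ v, ‖v‖ < r → 0 ≤ v 0 → 0 ≤ ψ v 0 ∧ (ψ v 0 = 0 ↔ v 0 = 0))
    {S : Set (Fin 3 → ℝ)} (hS1 : ∀ v, ‖v‖ < r → (b → 0 ≤ v 0) → ψ v ∈ S)
    (hS2 : ∀ ρ > 0, ∀ᶠ y in 𝓝[S] (ψ 0), ∃ v, ‖v‖ < ρ ∧ (b → 0 ≤ v 0) ∧ ψ v = y) :
    ∃ Φ : PLEquiv (cube 3) (cube 3), Φ.f 0 = 0 ∧
      (b → ∀ y, (0 ≤ Φ.f y 0 ↔ 0 ≤ y 0) ∧ (Φ.f y 0 = 0 ↔ y 0 = 0)) ∧
      ∃ δ₀ > 0, ∀ δ : ℝ, 0 < δ → δ ≤ δ₀ → ∀ y ∈ cube 3,
        (ψ 0 + δ • Φ.f y ∈ S ↔ (y 2 = 0 ∧ (b → 0 ≤ y 0))) := by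
  obtain ⟨ρ₀, L, H, hρ₀, hH, hψH⟩ := exists_conic hr hψ
  set ρ := min ρ₀ r
  have hρ : 0 < ρ := lt_min hρ₀ hr
  have ρ1 : ∀ {v : Fin 2 → ℝ}, ‖v‖ < ρ → ψ v = ψ 0 + H v := fun h =>
    hψH _ (h.trans_le (min_le_left _ _))
  have ρ2 : ∀ {v : Fin 2 → ℝ}, ‖v‖ < ρ → ‖v‖ < r := fun h => h.trans_le (min_le_right _ _)
  have H0 : ∀ v, v ≠ 0 → H v ≠ 0 := fun v hv e => by
    obtain ⟨t, ht, htv⟩ := small hρ v
    have := h0 _ (ρ2 htv) (by rw [ρ1 htv, hH.homog t v ht.le, e, smul_zero, add_zero])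
    exact hv ((smul_eq_zero.1 this).resolve_left ht.ne')
  obtain ⟨f, g, fpl, gf, fg, nf, fh, s1, s2⟩ := rescale (conic_pl hH univ) hH.homog H0
    (ContinuousLinearMap.proj (R := ℝ) (φ := fun _ : Fin 2 => ℝ) 0)
  simp only [ContinuousLinearMap.proj_apply] at s1 s2
  have s3 : ∀ v, f v 0 = 0 ↔ v 0 = 0 := fun v => by
    rw [le_antisymm_iff, le_antisymm_iff, s1, s2]
  have Hi : InjOn H {v | b → 0 ≤ v 0} := fun v hv w hw e => by
    obtain ⟨t, ht, htv⟩ := small hρ (v, w)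
    have h1 : ‖t • v‖ < ρ := lt_of_le_of_lt (norm_fst_le (t • (v, w))) htv
    have h2 : ‖t • w‖ < ρ := lt_of_le_of_lt (norm_snd_le (t • (v, w))) htv
    have := hi ⟨ρ2 h1, fun hb => mul_nonneg ht.le (hv hb)⟩ ⟨ρ2 h2, fun hb => mul_nonneg ht.le (hw hb)⟩
      (by rw [ρ1 h1, ρ1 h2, hH.homog t v ht.le, hH.homog t w ht.le, e])
    exact smul_right_injective _ ht.ne' this
  set G : (Fin 2 → ℝ) → Fin 3 → ℝ := fun v => H (f v) with hG
  have Gpl : ∀ K, PLOn G K := fun K =>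
    ((conic_pl hH univ).comp fpl (mapsTo_univ _ _)).mono (subset_univ _)
  have Gi : InjOn G {v | b → 0 ≤ v 0} := fun v hv w hw e => by
    have := Hi (fun hb => (s1 v).2 (hv hb)) (fun hb => (s1 w).2 (hw hb)) e
    rw [← gf v, this, gf]
  set T := G '' {v | b → 0 ≤ v 0} with hT
  have Tc : ∀ t : ℝ, 0 < t → ∀ y ∈ T, t • y ∈ T := by
    rintro t ht _ ⟨v, hv, rfl⟩
    exact ⟨t • v, fun hb => mul_nonneg ht.le (hv hb), by
      simp only [hG, fh t v ht.le, hH.homog t _ ht.le]⟩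
  have f0 : f 0 = 0 := by simpa using fh 0 0 le_rfl
  have T0 : (0 : Fin 3 → ℝ) ∈ T := ⟨0, fun _ => le_rfl, by simp only [hG, f0, hH.zero]⟩
  have Gs : ∀ v, G v ∈ sph 3 ↔ v ∈ sph 2 := fun v => by
    simp only [sph, mem_sphere_zero_iff_norm, hG, nf]
  obtain ⟨θ, θ1, θ2⟩ : ∃ θ : PLEquiv (sph 3) (sph 3),
      (∀ y ∈ sph 3, θ.f y ∈ T ↔ (y 2 = 0 ∧ (b → 0 ≤ y 0))) ∧
      (b → ∀ y ∈ sph 3, (0 ≤ θ.f y 0 ↔ 0 ≤ y 0) ∧ (θ.f y 0 = 0 ↔ y 0 = 0)) := by
    by_cases hb' : b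
    · have Hb : ∀ v, 0 ≤ v 0 → 0 ≤ H v 0 ∧ (H v 0 = 0 ↔ v 0 = 0) := fun v hv => by
        obtain ⟨t, ht, htv⟩ := small hρ v
        have h1 := hb hb' _ (ρ2 htv) (mul_nonneg ht.le hv)
        have h2 := ((hb hb' 0 (by simpa using hr) le_rfl).2).2 rfl
        rw [ρ1 htv, hH.homog t v ht.le] at h1
        simp only [Pi.add_apply, Pi.smul_apply, smul_eq_mul, h2, zero_add, mul_eq_zero,
          ht.ne', false_or] at h1
        exact ⟨(mul_nonneg_iff_of_pos_left ht).1 h1.1, h1.2⟩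
      have arc : ∀ G : (Fin 2 → ℝ) → Fin 3 → ℝ, (∀ v, G v ∈ sph 3 ↔ v ∈ sph 2) →
          (∀ v, 0 ≤ v 0 → 0 ≤ G v 0 ∧ (G v 0 = 0 ↔ v 0 = 0)) →
          G '' Hp 1 ⊆ Hp 2 ∧ G '' Hp 1 ∩ He 2 = G '' He 1 := fun G h1 h2 => by
        constructor
        · rintro _ ⟨v, hv, rfl⟩
          exact ⟨(h1 v).2 hv.1, (h2 v hv.2).1⟩
        · ext y
          constructor
          · rintro ⟨⟨v, hv, rfl⟩, h⟩
            exact ⟨v, ⟨hv.1, (h2 v hv.2).2.1 h.2⟩, rfl⟩
          · rintro ⟨v, hv, rfl⟩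
            exact ⟨⟨v, ⟨hv.1, hv.2.ge⟩, rfl⟩, (h1 v).2 hv.1, (h2 v hv.2.ge).2.2 hv.2⟩
      obtain ⟨a1, a2⟩ := arc J (fun v => by simp only [sph, mem_sphere_zero_iff_norm, norm_J])
        (fun v hv => ⟨hv, Iff.rfl⟩)
      obtain ⟨b1, b2⟩ := arc G Gs (fun v hv =>
        ⟨(Hb _ ((s1 v).2 hv)).1, (Hb _ ((s1 v).2 hv)).2.trans (s3 v)⟩)
      obtain ⟨θ, c1, c2, c3⟩ := theta_arcs
        ((ballPair_cube 1).ball₁.image_injOn (pl_J _) J_inj.injOn)
        ((ballPair_cube 1).ball₁.image_injOn (Gpl _) (Gi.mono fun v hv _ => hv.2)) a1 b1 a2 b2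
      refine ⟨θ, fun y hy => ?_, fun _ y hy => ⟨?_, ?_⟩⟩
      · have h1 := mem_image_iff θ (a1.trans fun _ h => h.1) c1 hy
        constructor
        · rintro ⟨v, hv, e⟩
          obtain ⟨w, hw, rfl⟩ := h1.1 ⟨v, ⟨(Gs v).1 (e ▸ θ.mf hy), hv hb'⟩, e⟩
          exact ⟨rfl, fun _ => hw.2⟩
        · rintro ⟨h2, h3⟩
          obtain ⟨v, hv, e⟩ := h1.2 ⟨![y 0, y 1], ⟨by
            have := norm_J ![y 0, y 1]
            rw [J_surj h2] at this
            rw [sph, mem_sphere_zero_iff_norm, ← this]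
            exact mem_sphere_zero_iff_norm.1 hy, h3 hb'⟩, J_surj h2⟩
          exact ⟨v, fun _ => hv.2, e⟩
      · have h1 := mem_image_iff θ (fun _ h => h.1) c2 hy
        exact ⟨fun h => (h1.1 ⟨θ.mf hy, h⟩).2, fun h => (h1.2 ⟨hy, h⟩).2⟩
      · have h1 := mem_image_iff θ (fun _ h => h.1) c3 hy
        exact ⟨fun h => (h1.1 ⟨θ.mf hy, h⟩).2, fun h => (h1.2 ⟨hy, h⟩).2⟩
    · obtain ⟨θ, h1⟩ := theta_int ((isBall_cube 2).image_injOn (Gpl _)
        (fun v _ w _ e => Gi (fun h => absurd h hb') (fun h => absurd h hb') e)) (by rintro _ ⟨v, hv, rfl⟩; exact (Gs v).2 hv)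
      refine ⟨θ, fun y hy => ?_, fun h => absurd h hb'⟩
      rw [and_iff_left (fun h => absurd h hb'), ← h1 y hy]
      constructor
      · rintro ⟨v, -, e⟩
        exact ⟨v, (Gs v).1 (e ▸ θ.mf hy), e⟩
      · rintro ⟨v, -, e⟩
        exact ⟨v, fun h => absurd h hb', e⟩
  refine ⟨coneEquiv θ, cone_zero _, fun hb' y => ⟨?_, ?_⟩, ?_⟩
  · exact cone_mem (T := {y | 0 ≤ y 0}) (T₀ := {y | 0 ≤ y 0})
      (fun t ht v hv => mul_nonneg ht.le hv) (fun t ht v hv => mul_nonneg ht.le hv)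
      (le_refl (0:ℝ)) (le_refl (0:ℝ)) (fun y hy => (θ2 hb' y hy).1) y
  · exact cone_mem (T := {y | y 0 = 0}) (T₀ := {y | y 0 = 0})
      (fun t _ v hv => mul_eq_zero_of_right t hv) (fun t _ v hv => mul_eq_zero_of_right t hv)
      rfl rfl (fun y hy => (θ2 hb' y hy).2) y
  · have e1 : ∀ᶠ w in 𝓝 (0 : Fin 3 → ℝ), (ψ 0 + w ∈ S ↔ w ∈ T) := by
      have h1 : ∀ᶠ w in 𝓝 (0 : Fin 3 → ℝ), ψ 0 + w ∈ S →
          ∃ v, ‖v‖ < ρ ∧ (b → 0 ≤ v 0) ∧ ψ v = ψ 0 + w := by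
        have h2 : Tendsto (fun w => ψ 0 + w) (𝓝 (0 : Fin 3 → ℝ)) (𝓝 (ψ 0)) := by
          simpa using (continuous_const_add (ψ 0)).tendsto 0
        exact h2.eventually (eventually_nhdsWithin_iff.1 (hS2 ρ hρ))
      have h2 : ∀ᶠ v in 𝓝 (0 : Fin 2 → ℝ), ‖f v‖ < ρ := by
        have h3 := (continuousOn_univ.1 fpl.1).norm.tendsto 0
        rw [f0, norm_zero] at h3
        exact h3.eventually (gt_mem_nhds hρ)
      obtain ⟨η, hη, h3⟩ := Metric.eventually_nhds_iff.1 h2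
      filter_upwards [h1, ball_mem_nhds 0 hη] with w hw hwη
      constructor
      · intro h
        obtain ⟨v, h4, h5, h6⟩ := hw h
        rw [ρ1 h4, add_right_inj] at h6
        exact ⟨g v, fun hb' => (s1 _).1 (by rw [fg]; exact h5 hb'), by simp only [hG, fg, h6]⟩
      · rintro ⟨v, hv, rfl⟩
        have h4 : ‖f v‖ < ρ := h3 (by
          rw [dist_zero_right, ← nf v]; exact mem_ball_zero_iff.1 hwη)
        have h5 := hS1 _ (ρ2 h4) fun hb' => (s1 v).2 (hv hb')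
        rwa [ρ1 h4] at h5
    obtain ⟨η, hη, h1⟩ := Metric.eventually_nhds_iff.1 e1
    refine ⟨η / 2, half_pos hη, fun δ hδ hδ' y hy => ?_⟩
    have h2 : ‖(coneEquiv θ).f y‖ ≤ 1 := mem_closedBall_zero_iff.1 ((coneEquiv θ).mf hy)
    rw [h1 (by
      rw [dist_zero_right, norm_smul, Real.norm_eq_abs, abs_of_pos hδ]; nlinarith)]
    have h3 := cone_mem (T₀ := {y | y 2 = 0 ∧ (b → 0 ≤ y 0)}) Tc
      (fun t ht v hv => ⟨mul_eq_zero_of_right t hv.1, fun h => mul_nonneg ht.le (hv.2 h)⟩)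
      T0 ⟨rfl, fun _ => le_rfl⟩ θ1 y
    refine Iff.trans ⟨fun h => ?_, Tc δ hδ _⟩ h3
    have h4 := Tc _ (inv_pos.2 hδ) _ h
    rwa [smul_smul, inv_mul_cancel₀ hδ.ne', one_smul] at h4

end Crest.Agent.X212.Thk1
end

-- ▼ part X212/Thk1/Main

/-!
# X212 / T layer / THICK (helper1), part 4: `FlatStmt`, `ThickE`, `ThickStmt`
-/

set_option autoImplicit false

open Set Metric Topology Filter

namespace Crest.Agent.X212.Thk1

open Crest.Agent.R096 Crest.Agent.R096.Ce_537 Crest.Agent.R096.Cb_609 Crest.Agent.R096.Gn_296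
open Crest.Agent.X212.Prd34 (V up fl side FlatAt FlatStmt ThickStmt)
open Crest.Agent.X212.Dsc4 (ROpen Ch MfE ThickE)

section param

variable {E : Type*} [NormedAddCommGroup E] [NormedSpace ℝ E]

theorem mem_sph2 {v : Fin 2 → ℝ} (hv : v ∈ cube 2) : v ∈ sph 2 ↔ |v 0| = 1 ∨ |v 1| = 1 := by
  have h1 : ‖v‖ ≤ 1 := mem_closedBall_zero_iff.1 hv
  rw [sph, mem_sphere_zero_iff_norm]
  constructor
  · intro h
    obtain ⟨i, hi⟩ := exists_coord (x := v) (by rintro rfl; simp at h)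
    rw [h] at hi
    fin_cases i
    · exact Or.inl hi.symm
    · exact Or.inr hi.symm
  · rintro (h | h)
    · exact le_antisymm h1 (h ▸ norm_le_pi_norm v 0)
    · exact le_antisymm h1 (h ▸ norm_le_pi_norm v 1)

/-- a boundary point of a disc is the middle of a side -/
theorem move {D Γ : Set E} (h : IsBall 2 D Γ) {x : E} (hx : x ∈ Γ) :
    ∃ φ : PLEquiv (cube 2) D, φ.f '' sph 2 = Γ ∧ φ.f ![-1, 0] = x := by
  have hp : (![-1, 0] : Fin 2 → ℝ) ∈ sph 2 := (mem_sph2 (mem_closedBall_zero_iff.2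
    ((pi_norm_le_iff_of_nonneg zero_le_one).2 fun i => by fin_cases i <;> simp))).2 (by simp)
  have hq : (![1, 0] : Fin 2 → ℝ) ∈ sph 2 := (mem_sph2 (mem_closedBall_zero_iff.2
    ((pi_norm_le_iff_of_nonneg zero_le_one).2 fun i => by fin_cases i <;> simp))).2 (by simp)
  have hpq : (![-1, 0] : Fin 2 → ℝ) ≠ ![1, 0] := fun e => by
    have := congrFun e 0
    norm_num at this
  obtain ⟨y, hy, hxy⟩ : ∃ y ∈ Γ, x ≠ y := by
    obtain ⟨φ, rfl⟩ := h
    by_contra hc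
    push Not at hc
    exact hpq (φ.injOn (sph_subset_cube hp) (sph_subset_cube hq)
      ((hc _ ⟨_, hp, rfl⟩).symm.trans (hc _ ⟨_, hq, rfl⟩)))
  obtain ⟨A, B, h1, h2⟩ := two_marks h hx hy hxy
  obtain ⟨A₀, B₀, h3, h4⟩ := two_marks (isBall_cube 2) hp hq hpq
  let e₀ : PLEquiv ({![-1, 0]} : Set (Fin 2 → ℝ)) ({x} : Set E) :=
    ⟨fun _ => x, fun _ => ![-1, 0], plOn_const _ _, plOn_const _ _, fun _ _ => rfl,
      fun _ _ => rfl, fun _ h => h.symm, fun _ h => h.symm⟩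
  obtain ⟨e, e1, -, e2⟩ := (arc_pair h3.ball₁).extend (arc_pair h1.ball₁) e₀ (image_empty _)
  have e3 : e.f ![-1, 0] = x := e1 rfl
  rw [image_singleton, singleton_eq_singleton_iff] at e2
  obtain ⟨φ, f1, -, f2⟩ := h3.extend h1 e (by rw [image_pair, e3, e2])
  refine ⟨φ, ?_, (f1 (h3.ball₁.subset (by simp))).trans e3⟩
  rw [← h4, image_union, f1.image_eq, e.image_eq, f2, h2]

/-- local parametrisation of a disc by a plane or a half plane -/
theorem param {D Γ : Set E} (h : IsBall 2 D Γ) {x : E} (hx : x ∈ D) :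
    ∃ (π : (Fin 2 → ℝ) → E) (r : ℝ), 0 < r ∧ π 0 = x ∧ PLOn π (ball 0 r) ∧
      MapsTo π (ball 0 r) D ∧ (∀ v, ‖v‖ < r → π v = x → v = 0) ∧
      InjOn π {v | ‖v‖ < r ∧ (x ∈ Γ → 0 ≤ v 0)} ∧
      (x ∈ Γ → ∀ v, ‖v‖ < r → 0 ≤ v 0 → (π v ∈ Γ ↔ v 0 = 0)) ∧
      ∀ ρ > 0, ∀ᶠ y in 𝓝[D] x, ∃ v, ‖v‖ < ρ ∧ (x ∈ Γ → 0 ≤ v 0) ∧ π v = y := by
  have near : ∀ φ : PLEquiv (cube 2) D, ∀ ρ > 0, ∀ᶠ y in 𝓝[D] x, ‖φ.g y - φ.g x‖ < ρ :=
    fun φ ρ hρ => by
      have := φ.pg.1 x hx (ball_mem_nhds _ hρ)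
      filter_upwards [this] with y hy
      exact mem_ball_iff_norm.1 hy
  by_cases hb : x ∈ Γ
  · obtain ⟨φ, h1, h2⟩ := move h hb
    let a : (Fin 2 → ℝ) → Fin 2 → ℝ := fun v => ![-1 + |v 0|, v 1]
    have apl : ∀ K, PLOn a K := fun K => pl_pi fun i => by
      fin_cases i
      · exact pl_add (plOn_const _ _) (pl_abs (pl_coord (plOn_id K) 0))
      · exact pl_coord (plOn_id K) 1
    have c0 : ∀ v : Fin 2 → ℝ, ‖v‖ < 1 → |v 0| < 1 ∧ |v 1| < 1 := fun v hv =>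
      ⟨(norm_le_pi_norm v 0).trans_lt hv, (norm_le_pi_norm v 1).trans_lt hv⟩
    have am : ∀ v, ‖v‖ < 1 → a v ∈ cube 2 := fun v hv => mem_closedBall_zero_iff.2
      ((pi_norm_le_iff_of_nonneg zero_le_one).2 fun i => by
        fin_cases i
        · show abs (-1 + |v 0|) ≤ 1
          rw [abs_le]; constructor <;> linarith [abs_nonneg (v 0), (c0 v hv).1]
        · exact (c0 v hv).2.le)
    have a0 : a 0 = ![-1, 0] := by simp [a]
    have hp : (![-1, 0] : Fin 2 → ℝ) ∈ cube 2 := a0 ▸ am 0 (by simp)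
    refine ⟨fun v => φ.f (a v), 1, one_pos, by simp only [a0, h2],
      φ.pf.comp (apl _) fun v hv => am v (mem_ball_zero_iff.1 hv),
      fun v hv => φ.mf (am v (mem_ball_zero_iff.1 hv)), fun v hv e => ?_, fun v hv w hw e => ?_,
      fun _ v hv h0 => ?_, fun ρ hρ => ?_⟩
    · have h3 := φ.injOn (am v hv) hp (e.trans h2.symm)
      have h4 : -1 + |v 0| = -1 := congrFun h3 0
      have h5 : v 1 = 0 := congrFun h3 1
      funext i
      fin_cases i
      · exact abs_eq_zero.1 (show |v 0| = 0 by linarith)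
      · exact h5
    · have h3 := φ.injOn (am v hv.1) (am w hw.1) e
      have h4 : -1 + |v 0| = -1 + |w 0| := congrFun h3 0
      have h5 : v 1 = w 1 := congrFun h3 1
      rw [abs_of_nonneg (hv.2 hb), abs_of_nonneg (hw.2 hb)] at h4
      funext i
      fin_cases i
      · show v 0 = w 0
        linarith
      · exact h5
    · rw [mem_image_iff φ sph_subset_cube h1 (am v hv), mem_sph2 (am v hv)]
      show abs (-1 + |v 0|) = 1 ∨ |v 1| = 1 ↔ _
      have h3 := c0 v hv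
      rw [abs_of_nonneg h0] at h3 ⊢
      rw [abs_of_nonpos (by linarith [h3.1]), or_iff_left h3.2.ne]
      constructor <;> intro h <;> linarith
    · have g0 : φ.g x = ![-1, 0] := by rw [← h2, φ.li _ hp]
      filter_upwards [near φ ρ hρ, self_mem_nhdsWithin] with y hy hyD
      have h3 : |φ.g y 0| ≤ 1 :=
        (norm_le_pi_norm (φ.g y) 0).trans (mem_closedBall_zero_iff.1 (φ.mg hyD))
      have h4 : (φ.g y - φ.g x) 0 = φ.g y 0 + 1 := by simp [g0]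
      have h5 : 0 ≤ (φ.g y - φ.g x) 0 := by rw [h4]; linarith [(abs_le.1 h3).1]
      refine ⟨_, hy, fun _ => h5, ?_⟩
      have h6 : a (φ.g y - φ.g x) = φ.g y := by
        funext i
        fin_cases i
        · show -1 + |(φ.g y - φ.g x) 0| = φ.g y 0
          rw [abs_of_nonneg h5, h4]; ring
        · show φ.g y 1 - φ.g x 1 = φ.g y 1
          rw [g0]; exact sub_zero _
      simp only [h6, φ.ri y hyD]
  · obtain ⟨φ, h1⟩ := h
    have h2 : ‖φ.g x‖ < 1 := lt_of_le_of_ne (mem_closedBall_zero_iff.1 (φ.mg hx)) fun e =>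
      hb (h1 ▸ ⟨φ.g x, mem_sphere_zero_iff_norm.2 e, φ.ri x hx⟩)
    have am : ∀ v, ‖v‖ < 1 - ‖φ.g x‖ → φ.g x + v ∈ cube 2 := fun v hv =>
      mem_closedBall_zero_iff.2 (by linarith [norm_add_le (φ.g x) v])
    refine ⟨fun v => φ.f (φ.g x + v), 1 - ‖φ.g x‖, by linarith, by simp only [add_zero, φ.ri x hx],
      φ.pf.comp (pl_add (plOn_const _ _) (plOn_id _)) fun v hv => am v (mem_ball_zero_iff.1 hv),
      fun v hv => φ.mf (am v (mem_ball_zero_iff.1 hv)), fun v hv e => ?_, fun v hv w hw e => ?_,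
      fun h => absurd h hb, fun ρ hρ => ?_⟩
    · exact add_eq_left.1 (φ.injOn (am v hv) (φ.mg hx) (e.trans (φ.ri x hx).symm))
    · exact add_left_cancel (φ.injOn (am v hv.1) (am w hw.1) e)
    · filter_upwards [near φ ρ hρ, self_mem_nhdsWithin] with y hy hyD
      exact ⟨_, hy, fun h => absurd h hb, by simp only [add_sub_cancel, φ.ri y hyD]⟩

/-- a flat chart gives a bicollar -/
theorem pc_of_chart {b : Prop} {W N D B : Set E}
    (Ψ : PLEquiv {y | y ∈ cube 3 ∧ (b → 0 ≤ y 0)} B) (hB : B ⊆ W)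
    (hD : ∀ y ∈ cube 3, (b → 0 ≤ y 0) → (Ψ.f y ∈ D ↔ y 2 = 0))
    (hN : ∀ y ∈ cube 3, (b → 0 ≤ y 0) → (Ψ.f y ∈ N ↔ b ∧ y 0 = 0)) :
    ∃ P : Pc (-1) W N D, P.O = B := by
  let u : V → ℝ → V := fun y t => ![y 0, y 1, t]
  have um : ∀ y ∈ {y | y ∈ cube 3 ∧ (b → 0 ≤ y 0)}, ∀ t ∈ Icc (-1:ℝ) 1,
      u y t ∈ {y | y ∈ cube 3 ∧ (b → 0 ≤ y 0)} := fun y hy t ht =>
    ⟨mem_closedBall_zero_iff.2 ((pi_norm_le_iff_of_nonneg zero_le_one).2 fun i => by
      fin_cases i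
      · exact (norm_le_pi_norm y 0).trans (mem_closedBall_zero_iff.1 hy.1)
      · exact (norm_le_pi_norm y 1).trans (mem_closedBall_zero_iff.1 hy.1)
      · exact abs_le.2 ht), hy.2⟩
  have upl : ∀ {F : Type _} [NormedAddCommGroup F] [NormedSpace ℝ F] {K : Set F} {f : F → V}
      {g : F → ℝ}, PLOn f K → PLOn g K → PLOn (fun z => u (f z) (g z)) K := by
    intro F _ _ K f g hf hg
    refine pl_pi fun i => ?_
    fin_cases i
    · exact pl_coord hf 0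
    · exact pl_coord hf 1
    · exact hg
  have uu : ∀ y, u y (y 2) = y := fun y => by funext i; fin_cases i <;> rfl
  have z0 : (0:ℝ) ∈ Icc (-1:ℝ) 1 := ⟨by norm_num, zero_le_one⟩
  have cl : IsClosed {y : V | b → 0 ≤ y 0} := by
    by_cases hb : b
    · simpa [hb] using isClosed_le continuous_const (continuous_apply 0)
    · simp [hb]
  refine ⟨⟨{x | x ∈ B ∧ Ψ.g x 2 = 0}, B,
    ⟨fun q => Ψ.f (u (Ψ.g q.1) q.2), fun y => (Ψ.f (u (Ψ.g y) 0), Ψ.g y 2),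
      Ψ.pf.comp (upl (Ψ.pg.comp (pl_fst' _) fun q hq => hq.1.1) (pl_snd' _))
        fun q hq => um _ (Ψ.mg hq.1.1) _ hq.2,
      pl_pair (Ψ.pf.comp (upl Ψ.pg (plOn_const _ _)) fun y hy => um _ (Ψ.mg hy) _ z0)
        (pl_coord Ψ.pg 2),
      fun q hq => Ψ.mf (um _ (Ψ.mg hq.1.1) _ hq.2),
      fun y hy => ⟨⟨Ψ.mf (um _ (Ψ.mg hy) _ z0), ?_⟩, ?_⟩, fun q hq => ?_, fun y hy => ?_⟩,
    ?_, fun x hx => ?_, hB, fun x hx => ?_, fun x hx t ht h => ?_, fun x hx t ht => ?_⟩, rfl⟩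
  · rw [Ψ.li _ (um _ (Ψ.mg hy) _ z0)]; rfl
  · exact abs_le.1 ((norm_le_pi_norm (Ψ.g y) 2).trans (mem_closedBall_zero_iff.1 (Ψ.mg hy).1))
  · simp only [Ψ.li _ (um _ (Ψ.mg hq.1.1) _ hq.2)]
    refine Prod.ext ?_ rfl
    show Ψ.f (u (Ψ.g q.1) 0) = q.1
    have h1 := uu (Ψ.g q.1)
    rw [hq.1.2] at h1
    rw [h1, Ψ.ri _ hq.1.1]
  · simp only [Ψ.li _ (um _ (Ψ.mg hy) _ z0)]
    show Ψ.f (u (Ψ.g y) (Ψ.g y 2)) = y
    rw [uu, Ψ.ri _ hy]
  · have e : {x | x ∈ B ∧ Ψ.g x 2 = 0} =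
        Ψ.f '' ((cube 3 ∩ {y | b → 0 ≤ y 0}) ∩ {y | y 2 = 0}) := by
      ext x
      constructor
      · intro hx
        exact ⟨Ψ.g x, ⟨Ψ.mg hx.1, hx.2⟩, Ψ.ri x hx.1⟩
      · rintro ⟨y, hy, rfl⟩
        exact ⟨Ψ.mf hy.1, by rw [Ψ.li y hy.1]; exact hy.2⟩
    rw [e]
    exact (((isCompact_closedBall _ _).inter_right cl).inter_right
      (isClosed_eq (continuous_apply 2) continuous_const)).image_of_continuousOn
      (Ψ.pf.1.mono inter_subset_left)
  · have := (hD _ (Ψ.mg hx.1).1 (Ψ.mg hx.1).2).2 hx.2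
    rwa [Ψ.ri x hx.1] at this
  · show Ψ.f (u (Ψ.g x) 0) = x
    have h1 := uu (Ψ.g x)
    rw [hx.2] at h1
    rw [h1, Ψ.ri _ hx.1]
  · exact (hD _ (um _ (Ψ.mg hx.1) _ ht).1 (um _ (Ψ.mg hx.1) _ ht).2).1 h
  · have h1 := hN _ (Ψ.mg hx.1).1 (Ψ.mg hx.1).2
    rw [Ψ.ri x hx.1] at h1
    rw [h1]
    exact hN _ (um _ (Ψ.mg hx.1) _ ht).1 (um _ (Ψ.mg hx.1) _ ht).2

/-- **local bicollars** of a surface `S` which is, near `x`, a proper disc -/
theorem local_pc {W dW S D Γ : Set E} {x : E} {O : Set E} {O' : Set V} (e : PLEquiv O O')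
    (hOW : O ⊆ W) (hO : O ∈ 𝓝[W] x) (hO' : ROpen up O') (bd : ∀ y ∈ O, y ∈ dW ↔ e.f y 2 = 0)
    (h : IsBall 2 D Γ) (hx : x ∈ D) (hDW : D ⊆ W) (hDS : D ⊆ S) (hS : D ∈ 𝓝[S] x)
    (hΓ : ∀ᶠ y in 𝓝[D] x, y ∈ Γ ↔ y ∈ dW) : ∃ P : Pc (-1) W dW S, P.O ∈ 𝓝[W] x := by
  obtain ⟨π, r₀, hr₀, π0, πpl, πm, π1, πi, πb, πn⟩ := param h hx
  have hxO : x ∈ O := mem_of_mem_nhdsWithin (hDW hx) hO
  have hxΓ : x ∈ Γ ↔ x ∈ dW := hΓ.self_of_nhdsWithin hx
  obtain ⟨A', hA', rfl⟩ := hO'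
  obtain ⟨r, hr, hrr, hπ⟩ : ∃ r > 0, r ≤ r₀ ∧ ∀ v, ‖v‖ < r → π v ∈ O ∧ (π v ∈ Γ ↔ π v ∈ dW) := by
    have h1 : Tendsto π (𝓝 0) (𝓝[D] x) := by
      have := (πpl.1 0 (mem_ball_self hr₀)).tendsto_nhdsWithin πm
      rwa [π0, nhdsWithin_eq_nhds.2 (ball_mem_nhds _ hr₀)] at this
    obtain ⟨ε, hε, h2⟩ := Metric.eventually_nhds_iff.1
      (h1.eventually (hΓ.and (nhdsWithin_mono _ hDW hO)))
    refine ⟨min ε r₀, lt_min hε hr₀, min_le_right _ _, fun v hv => ?_⟩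
    have := h2 (y := v) (by rw [dist_zero_right]; exact hv.trans_le (min_le_left _ _))
    exact ⟨this.2, this.1⟩
  have ψ0 : sw (e.f (π 0)) = sw (e.f x) := by rw [π0]
  have swi : ∀ {a b : V}, sw a = sw b → a = b := fun {a b} h => by rw [← sw_sw a, h, sw_sw]
  obtain ⟨Φ, Φ0, Φb, δ₀, hδ₀, ΦS⟩ := model (x ∈ Γ) (ψ := fun v => sw (e.f (π v))) hr
    ((pl_sw univ).comp (e.pf.comp (πpl.mono (ball_subset_ball hrr))
      fun v hv => (hπ v (mem_ball_zero_iff.1 hv)).1) (mapsTo_univ _ _))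
    (fun v hv h => π1 v (hv.trans_le hrr) (e.injOn (hπ v hv).1 hxO (swi (h.trans ψ0))))
    (fun v hv w hw h => πi ⟨hv.1.trans_le hrr, hv.2⟩ ⟨hw.1.trans_le hrr, hw.2⟩
      (e.injOn (hπ v hv.1).1 (hπ w hw.1).1 (swi h)))
    (fun hb v hv h0 => by
      simp only [sw_zero]
      exact ⟨(e.mf (hπ v hv).1).2, by
        rw [← bd _ (hπ v hv).1, ← (hπ v hv).2, πb hb v (hv.trans_le hrr) h0]⟩)
    (S := {y | sw y ∈ A' ∩ up ∧ e.g (sw y) ∈ S})
    (fun v hv _ => by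
      simp only [mem_ofPred_eq, sw_sw, e.li _ (hπ v hv).1]
      exact ⟨e.mf (hπ v hv).1, hDS (πm (mem_ball_zero_iff.2 (hv.trans_le hrr)))⟩)
    (fun ρ hρ => by
      have h1 : Tendsto (fun y => e.g (sw y)) (𝓝[{y | sw y ∈ A' ∩ up ∧ e.g (sw y) ∈ S}]
          (sw (e.f x))) (𝓝[S] x) := by
        have := ((e.pg.comp (pl_sw _) (fun y (hy : y ∈ {y | sw y ∈ A' ∩ up ∧ e.g (sw y) ∈ S})
          => hy.1)).1 (sw (e.f x)) (by
            simp only [mem_ofPred_eq, sw_sw, e.li _ hxO]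
            exact ⟨e.mf hxO, hDS hx⟩)).tendsto_nhdsWithin (t := S) fun y hy => hy.2
        simpa only [sw_sw, e.li _ hxO] using this
      simp only [π0]
      filter_upwards [h1.eventually (nhdsWithin_le_of_mem hS (πn ρ hρ)), self_mem_nhdsWithin]
        with y ⟨v, h2, h3, h4⟩ hy
      exact ⟨v, h2, h3, by rw [h4, e.ri _ hy.1, sw_sw]⟩)
  simp only [π0] at ΦS
  set z := e.f x with hz
  have hzm : z ∈ A' ∩ up := e.mf hxO
  obtain ⟨δ, hδ, hδ1, hδ2, hδ3⟩ : ∃ δ > 0, δ ≤ δ₀ ∧ closedBall z δ ⊆ A' ∧ (x ∉ Γ → δ < z 2) := by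
    obtain ⟨ε, hε, h1⟩ := Metric.nhds_basis_closedBall.mem_iff.1 (hA'.mem_nhds hzm.1)
    by_cases hb : x ∈ Γ
    · exact ⟨min ε δ₀, lt_min hε hδ₀, min_le_right _ _,
        (closedBall_subset_closedBall (min_le_left _ _)).trans h1, fun h => absurd hb h⟩
    · have h2 : 0 < z 2 := lt_of_le_of_ne hzm.2 fun h => hb (hxΓ.2 ((bd x hxO).2 h.symm))
      exact ⟨min (min ε δ₀) (z 2 / 2), lt_min (lt_min hε hδ₀) (half_pos h2),
        (min_le_left _ _).trans (min_le_right _ _), (closedBall_subset_closedBall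
          ((min_le_left _ _).trans (min_le_left _ _))).trans h1,
        fun _ => (min_le_right _ _).trans_lt (half_lt_self h2)⟩
  have z0 : x ∈ Γ → z 2 = 0 := fun hb => (bd x hxO).1 (hxΓ.1 hb)
  have c0 : ∀ y ∈ cube 3, -1 ≤ y 0 := fun y hy =>
    (abs_le.1 ((norm_le_pi_norm y 0).trans (mem_closedBall_zero_iff.1 hy))).1
  let Φ' : PLEquiv {y | y ∈ cube 3 ∧ (x ∈ Γ → 0 ≤ y 0)} {y | y ∈ cube 3 ∧ (x ∈ Γ → 0 ≤ y 0)} :=
    Φ.restr (fun _ h => h.1) (fun _ h => h.1)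
      (fun y hy => ⟨Φ.mf hy.1, fun hb => (Φb hb y).1.2 (hy.2 hb)⟩)
      (fun y hy => ⟨Φ.mg hy.1, fun hb => (Φb hb _).1.1 (by rw [Φ.ri y hy.1]; exact hy.2 hb)⟩)
  have sa : ∀ (a c : V) (t : ℝ), sw (a + t • c) = sw a + t • sw c := fun _ _ _ => rfl
  let a : PLEquiv {y | y ∈ cube 3 ∧ (x ∈ Γ → 0 ≤ y 0)} (closedBall z δ ∩ up) :=
    ⟨fun y => z + δ • sw y, fun w => sw (δ⁻¹ • (w - z)),
      pl_add (plOn_const _ _) (pl_smul _ (pl_sw _)),
      (pl_sw univ).comp (pl_smul _ (pl_sub (plOn_id _) (plOn_const _ _))) (mapsTo_univ _ _),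
      fun y hy => ⟨by
        rw [mem_closedBall_iff_norm, add_sub_cancel_left, norm_smul, norm_sw, Real.norm_eq_abs,
          abs_of_pos hδ]
        nlinarith [mem_closedBall_zero_iff.1 hy.1], by
        show 0 ≤ z 2 + δ * sw y 2
        rw [sw_two]
        by_cases hb : x ∈ Γ
        · rw [z0 hb, zero_add]; exact mul_nonneg hδ.le (hy.2 hb)
        · nlinarith [hδ3 hb, c0 y hy.1]⟩,
      fun w hw => ⟨by
        rw [cube, mem_closedBall_zero_iff, norm_sw, norm_smul, norm_inv, Real.norm_eq_abs,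
          abs_of_pos hδ, inv_mul_le_iff₀ hδ, mul_one]
        exact mem_closedBall_iff_norm.1 hw.1, fun hb => by
        show 0 ≤ sw (δ⁻¹ • (w - z)) 0
        rw [sw_zero]
        show 0 ≤ δ⁻¹ * (w 2 - z 2)
        rw [z0 hb, sub_zero]
        exact mul_nonneg (inv_pos.2 hδ).le hw.2⟩,
      fun y _ => by
        simp only [add_sub_cancel_left, smul_smul, inv_mul_cancel₀ hδ.ne', one_smul, sw_sw],
      fun w _ => by
        simp only [sw_sw, smul_smul, mul_inv_cancel₀ hδ.ne', one_smul, add_sub_cancel]⟩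
  have hsub : closedBall z δ ∩ up ⊆ A' ∩ up := inter_subset_inter_left _ hδ2
  obtain ⟨P, hP⟩ := pc_of_chart (W := W) (N := dW) (D := S)
    ((Φ'.trans a).trans (e.symm.restrImage hsub))
    (by rintro _ ⟨w, hw, rfl⟩; exact hOW (e.mg (hsub hw)))
    (fun y hy hy' => by
      have h1 := ΦS δ hδ hδ1 y hy
      rw [and_iff_left hy', mem_ofPred_eq, sa, sw_sw] at h1
      rw [← h1]
      exact (and_iff_right (hsub (a.mf (Φ'.mf ⟨hy, hy'⟩)))).symm)
    (fun y hy hy' => by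
      have h1 := hsub (a.mf (Φ'.mf ⟨hy, hy'⟩))
      refine (bd _ (e.mg h1)).trans ?_
      rw [e.ri _ h1]
      show z 2 + δ * sw (Φ.f y) 2 = 0 ↔ _
      rw [sw_two]
      by_cases hb : x ∈ Γ
      · rw [z0 hb, zero_add, mul_eq_zero, or_iff_right hδ.ne', (Φb hb y).2, and_iff_right hb]
      · refine iff_of_false (ne_of_gt ?_) fun h => hb h.1
        nlinarith [hδ3 hb, c0 _ (Φ.mf hy)])
  refine ⟨P, ?_⟩
  rw [hP]
  have h1 := nhds_image e.symm hzm
    (mem_nhdsWithin_of_mem_nhds (closedBall_mem_nhds z hδ))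
  have h2 : e.symm.f z = x := e.li x hxO
  rw [h2] at h1
  exact mem_of_superset (nhdsWithin_le_of_mem hO h1)
    (image_mono fun w hw => ⟨hw.1, hw.2.2⟩)

theorem ball_lc {k : ℕ} {D Γ : Set E} (h : IsBall k D Γ) {x : E} (hx : x ∈ D) {W : Set E}
    (hW : W ∈ 𝓝 x) : ∃ Q ⊆ D ∩ W, IsPreconnected Q ∧ Q ∈ 𝓝[D] x := by
  obtain ⟨φ, -⟩ := h
  have h1 : φ.f ⁻¹' W ∈ 𝓝[cube k] (φ.g x) :=
    φ.pf.1 _ (φ.mg hx) (by rw [φ.ri x hx]; exact hW)
  obtain ⟨ε, hε, h2⟩ := Metric.mem_nhdsWithin_iff.1 h1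
  refine ⟨φ.f '' (ball (φ.g x) ε ∩ cube k), ?_, ?_, ?_⟩
  · rintro _ ⟨v, hv, rfl⟩
    exact ⟨φ.mf hv.2, h2 hv⟩
  · exact ((convex_ball _ _).inter (convex_closedBall _ _)).isPreconnected.image _
      (φ.pf.1.mono inter_subset_right)
  · have := nhds_image φ (φ.mg hx) (mem_nhdsWithin_of_mem_nhds (ball_mem_nhds _ hε))
    rwa [φ.ri x hx] at this

end param

/-- local bicollars in an abstract manifold -/
theorem mfE_pc {E : Type} [NormedAddCommGroup E] [NormedSpace ℝ E] {W dW S D Γ : Set E}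
    (hW : MfE W dW) {x : E} (h : IsBall 2 D Γ) (hx : x ∈ D) (hDW : D ⊆ W) (hDS : D ⊆ S)
    (hS : D ∈ 𝓝[S] x) (hΓ : ∀ᶠ y in 𝓝[D] x, y ∈ Γ ↔ y ∈ dW) :
    ∃ P : Pc (-1) W dW S, P.O ∈ 𝓝[W] x := by
  obtain ⟨k, hk⟩ := hW.2 x (hDW hx)
  obtain ⟨A, hA, e⟩ := k.opn
  exact local_pc k.e (e.le.trans inter_subset_right)
    (mem_nhdsWithin.2 ⟨A, hA, (e.le hk).1, e.ge⟩) k.opn' k.bd h hx hDW hDS hS hΓ

/-- **(FLAT)** -/
theorem flatStmt : FlatStmt := by
  intro S D Γ x h hx hxΓ hDS hS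
  obtain ⟨π, r, hr, π0, πpl, πm, π1, πi, -, πn⟩ := param h hx
  obtain ⟨Φ, Φ0, -, δ, hδ, ΦS⟩ := model (x ∈ Γ) hr πpl (fun v hv e => π1 v hv (e.trans π0)) πi
    (fun h => absurd h hxΓ) (S := S) (fun v hv _ => hDS (πm (mem_ball_zero_iff.2 hv)))
    (fun ρ hρ => by rw [π0]; exact nhdsWithin_le_of_mem hS (πn ρ hρ))
  let a : PLEquiv (cube 3) (closedBall x δ) :=
    ⟨fun y => x + δ • y, fun w => δ⁻¹ • (w - x), pl_add (plOn_const _ _) (pl_smul _ (plOn_id _)),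
      pl_smul _ (pl_sub (plOn_id _) (plOn_const _ _)),
      fun y hy => by
        rw [mem_closedBall_iff_norm, add_sub_cancel_left, norm_smul, Real.norm_eq_abs,
          abs_of_pos hδ]
        nlinarith [mem_closedBall_zero_iff.1 hy],
      fun w hw => by
        rw [cube, mem_closedBall_zero_iff, norm_smul, norm_inv, Real.norm_eq_abs,
          abs_of_pos hδ, inv_mul_le_iff₀ hδ, mul_one]
        exact mem_closedBall_iff_norm.1 hw,
      fun y _ => by simp only [add_sub_cancel_left, smul_smul, inv_mul_cancel₀ hδ.ne', one_smul],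
      fun w _ => by simp only [smul_smul, mul_inv_cancel₀ hδ.ne', one_smul, add_sub_cancel]⟩
  have key : ∀ y ∈ cube 3, (Φ.trans a).f y ∈ S ↔ y ∈ fl := fun y hy => by
    have := ΦS δ hδ le_rfl y hy
    rw [π0, and_iff_left fun h => absurd h hxΓ] at this
    exact this
  refine ⟨_, Φ.trans a, ?_, closedBall_mem_nhds x hδ, ?_⟩
  · show x + δ • Φ.f 0 = x
    rw [Φ0, smul_zero, add_zero]
  · ext w
    constructor
    · intro hw
      have h1 := (Φ.trans a).mg hw.1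
      have h2 := (Φ.trans a).ri w hw.1
      exact ⟨_, ⟨h1, (key _ h1).1 (by rw [h2]; exact hw.2)⟩, h2⟩
    · rintro ⟨y, hy, rfl⟩
      exact ⟨(Φ.trans a).mf hy.1, (key y hy.1).2 hy.2⟩

/-- the cube as a product -/
def cubeProd : PLEquiv (cube 3) (cube 2 ×ˢ Icc (-1:ℝ) 1) where
  f := fun y => (![y 0, y 1], y 2)
  g := fun q => ![q.1 0, q.1 1, q.2]
  pf := pl_pair (pl_pi fun i => by
    fin_cases i
    · exact pl_coord (plOn_id _) 0
    · exact pl_coord (plOn_id _) 1) (pl_coord (plOn_id _) 2)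
  pg := pl_pi fun i => by
    fin_cases i
    · exact pl_coord (pl_fst' _) 0
    · exact pl_coord (pl_fst' _) 1
    · exact pl_snd' _
  mf := fun y hy => ⟨mem_closedBall_zero_iff.2 ((pi_norm_le_iff_of_nonneg zero_le_one).2
    fun i => by
      fin_cases i
      · exact (norm_le_pi_norm y 0).trans (mem_closedBall_zero_iff.1 hy)
      · exact (norm_le_pi_norm y 1).trans (mem_closedBall_zero_iff.1 hy)),
    abs_le.1 ((norm_le_pi_norm y 2).trans (mem_closedBall_zero_iff.1 hy))⟩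
  mg := fun q hq => mem_closedBall_zero_iff.2 ((pi_norm_le_iff_of_nonneg zero_le_one).2
    fun i => by
      fin_cases i
      · exact (norm_le_pi_norm q.1 0).trans (mem_closedBall_zero_iff.1 hq.1)
      · exact (norm_le_pi_norm q.1 1).trans (mem_closedBall_zero_iff.1 hq.1)
      · exact abs_le.2 hq.2)
  li := fun y _ => by funext i; fin_cases i <;> rfl
  ri := fun q _ => Prod.ext (by funext i; fin_cases i <;> rfl) rfl

/-- **(THICKE)** -/
theorem thickE : ThickE := by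
  intro E _ _ _ W dW D A hW h hDW hA hDA
  have hD := h.isCompact
  obtain ⟨S, hS⟩ := sides (M := W) (N := dW) hD hDW
    (fun ι _ => by
      obtain ⟨φ, -⟩ := h
      rw [← φ.image_eq]
      exact (Coh_184.trivAll_convex (isCompact_closedBall _ _)
        (convex_closedBall _ _)).of_image_compact (isCompact_closedBall _ _) isClosed_closedBall
        φ.pf.1 φ.injOn)
    (fun x hx W hW => ball_lc h hx hW)
    (fun x hx => mfE_pc hW h hx hDW Subset.rfl self_mem_nhdsWithin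
      (eventually_nhdsWithin_of_forall fun y hy => and_iff_right hy))
  obtain ⟨P, h1, h2, h3, -⟩ := bicollar hD hDW hA hDA S hS
  obtain ⟨φ, hφ⟩ := h
  let e : PLEquiv (cube 3) P.O :=
    (cubeProd.trans (prodEquiv (cast φ rfl h1.symm) (PLEquiv.refl _))).trans P.c
  have ef : ∀ y, e.f y = P.c.f (φ.f ![y 0, y 1], y 2) := fun _ => rfl
  have m1 : ∀ y ∈ cube 3, ![y 0, y 1] ∈ cube 2 := fun y hy => (cubeProd.mf hy).1
  have m2 : ∀ y ∈ cube 3, φ.f ![y 0, y 1] ∈ P.Q := fun y hy => h1.ge (φ.mf (m1 y hy))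
  have key : ∀ y ∈ cube 3, e.f y ∈ dW ↔ |y 0| = 1 ∨ |y 1| = 1 := fun y hy => by
    rw [ef, P.inN _ (m2 y hy) (y 2) (cubeProd.mf hy).2,
      ← and_iff_right (b := φ.f ![y 0, y 1] ∈ dW) (φ.mf (m1 y hy)), ← mem_inter_iff,
      mem_image_iff φ sph_subset_cube hφ (m1 y hy), mem_sph2 (m1 y hy)]
    rfl
  refine ⟨P.O, e, subset_inter P.OA h2, ?_, ?_, h3⟩
  · ext w
    constructor
    · rintro ⟨y, hy, rfl⟩
      have h4 : y 2 = 0 := hy.2
      rw [ef, h4, P.zero _ (m2 y hy.1)]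
      exact φ.mf (m1 y hy.1)
    · intro hw
      have h4 := e.mg (P.QO (by norm_num) (h1.ge hw))
      have h5 := e.ri _ (P.QO (by norm_num) (h1.ge hw))
      refine ⟨e.g w, ⟨h4, ?_⟩, h5⟩
      exact P.inD _ (m2 _ h4) _ (cubeProd.mf h4).2 (by rw [← ef, h5]; exact hw)
  · ext w
    constructor
    · intro hw
      have h4 := e.mg hw.1
      have h5 := e.ri _ hw.1
      exact ⟨e.g w, ⟨h4, (key _ h4).1 (by rw [h5]; exact hw.2)⟩, h5⟩
    · rintro ⟨y, hy, rfl⟩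
      exact ⟨e.mf hy.1, (key y hy.1).2 hy.2⟩

/-- **(THICK)** -/
theorem thickStmt : ThickStmt := fun M dM D _ U hM h hDM hΓ hU hDU =>
  thickE V M dM D U (Tw9.mfE_of_mf hM) (hΓ ▸ h) hDM hU hDU

end Crest.Agent.X212.Thk1
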